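import Vale.Agent.P057T.Cfg.Cp

/-!
Row CELL: a Gaussian window is a mixture of narrower Gaussian windows.
-/

open MvPolynomial Finset MeasureTheory
open scoped Real

namespace Vale.Agent.P057T.Cp

open Vale.Agent.P057T.Eq

noncomputable section

namespace Ce

/-- the mixing density -/
def ph (s l c : ℝ) : ℝ := Real.exp (-(π * s ^ 2 / (l ^ 2 - 1)) * c ^ 2)

theorem key {s l : ℝ} (hl : 1 < l) (u c : ℝ) :
    ph s l c * Real.exp (-π * (s * (l * u - c)) ^ 2) = Real.exp (-π * (s * u) ^ 2) *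
      Real.exp (-(π * s ^ 2 / (l ^ 2 - 1) * l ^ 2) * (c - (l ^ 2 - 1) * u / l) ^ 2) := by
  have h1 : l ^ 2 - 1 ≠ 0 := by nlinarith
  have h2 : l ≠ 0 := by linarith
  unfold ph
  rw [← Real.exp_add, ← Real.exp_add]
  congr 1
  field_simp
  ring

theorem bpos {s l : ℝ} (hs : 0 < s) (hl : 1 < l) : 0 < π * s ^ 2 / (l ^ 2 - 1) :=
  div_pos (mul_pos Real.pi_pos (pow_pos hs 2)) (by nlinarith)

theorem ph_int {s l : ℝ} (hs : 0 < s) (hl : 1 < l) : Integrable (ph s l) :=
  integrable_exp_neg_mul_sq (bpos hs hl)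

theorem k_int {s l : ℝ} (hs : 0 < s) (hl : 1 < l) (u : ℝ) :
    Integrable fun c => ph s l c * Real.exp (-π * (s * (l * u - c)) ^ 2) := by
  simp only [key hl]
  have hb : 0 < π * s ^ 2 / (l ^ 2 - 1) * l ^ 2 := mul_pos (bpos hs hl) (by positivity)
  exact ((integrable_exp_neg_mul_sq hb).comp_sub_right _).const_mul _

theorem k_val {s l : ℝ} (hs : 0 < s) (hl : 1 < l) (u : ℝ) :
    ∫ c, ph s l c * Real.exp (-π * (s * (l * u - c)) ^ 2) =
      Real.exp (-π * (s * u) ^ 2) * (l⁻¹ * ∫ c, ph s l c) := by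
  simp only [key hl]
  rw [integral_const_mul, integral_sub_right_eq_self
    (fun c : ℝ => Real.exp (-(π * s ^ 2 / (l ^ 2 - 1) * l ^ 2) * c ^ 2)), integral_gaussian]
  congr 1
  unfold ph
  rw [integral_gaussian, ← div_div, Real.sqrt_div' _ (sq_nonneg l), Real.sqrt_sq (by linarith),
    div_eq_inv_mul]

theorem ph_val {s l : ℝ} (hs : 0 < s) (hl : 1 < l) : 0 < ∫ c, ph s l c := by
  unfold ph
  rw [integral_gaussian]
  exact Real.sqrt_pos.2 (div_pos Real.pi_pos (bpos hs hl))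

theorem summ1 {Z : Type} {s l : ℝ} (hs : 0 < s) (hl : 1 < l) (ρ u : Z → ℝ) (hρ : ∀ z, 0 < ρ z)
    (h0 : Summable fun z => ρ z * Real.exp (-π * (s * u z) ^ 2)) (c : ℝ) :
    Summable fun z => ρ z * Real.exp (-π * (s * (l * u z - c)) ^ 2) := by
  have hp : 0 < ph s l c := Real.exp_pos _
  refine Summable.of_nonneg_of_le (fun z => (mul_pos (hρ z) (Real.exp_pos _)).le) (fun z => ?_)
    (h0.mul_left (ph s l c)⁻¹)
  rw [le_inv_mul_iff₀ hp, mul_left_comm, key hl]
  refine mul_le_mul_of_nonneg_left ?_ (hρ z).le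
  refine mul_le_of_le_one_right (Real.exp_pos _).le ?_
  rw [Real.exp_le_one_iff, neg_mul, neg_nonpos]
  exact mul_nonneg (mul_nonneg (bpos hs hl).le (sq_nonneg _)) (sq_nonneg _)

theorem summh {Z : Type} {w h : Z → ℝ} {B : ℝ} (hw : ∀ z, 0 ≤ w z) (h0 : Summable w)
    (hh : ∀ z, |h z| ≤ B) : Summable fun z => w z * h z := by
  refine Summable.of_norm_bounded (h0.mul_right B) fun z => ?_
  rw [Real.norm_eq_abs, abs_mul, abs_of_nonneg (hw z)]
  exact mul_le_mul_of_nonneg_left (hh z) (hw z)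

theorem mix {Z : Type} [Countable Z] {s l : ℝ} (hs : 0 < s) (hl : 1 < l) (ρ u h : Z → ℝ) {B : ℝ}
    (hρ : ∀ z, 0 < ρ z) (hh : ∀ z, |h z| ≤ B)
    (h0 : Summable fun z => ρ z * Real.exp (-π * (s * u z) ^ 2)) :
    ∫ c, ph s l c * ∑' z, ρ z * Real.exp (-π * (s * (l * u z - c)) ^ 2) * h z =
      (∑' z, ρ z * Real.exp (-π * (s * u z) ^ 2) * h z) * (l⁻¹ * ∫ c, ph s l c) := by
  have e1 : ∀ c, ph s l c * ∑' z, ρ z * Real.exp (-π * (s * (l * u z - c)) ^ 2) * h z =
      ∑' z, ρ z * h z * (ph s l c * Real.exp (-π * (s * (l * u z - c)) ^ 2)) := by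
    intro c
    rw [← tsum_mul_left]
    refine tsum_congr fun z => ?_
    ring
  simp only [e1]
  have hI : ∀ z, Integrable fun c =>
      ρ z * h z * (ph s l c * Real.exp (-π * (s * (l * u z - c)) ^ 2)) :=
    fun z => (k_int hs hl (u z)).const_mul _
  have hS : Summable fun z => ∫ c,
      ‖ρ z * h z * (ph s l c * Real.exp (-π * (s * (l * u z - c)) ^ 2))‖ := by
    have e2 : ∀ z, ∫ c, ‖ρ z * h z * (ph s l c * Real.exp (-π * (s * (l * u z - c)) ^ 2))‖ =
        ρ z * Real.exp (-π * (s * u z) ^ 2) * |h z| * (l⁻¹ * ∫ c, ph s l c) := by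
      intro z
      have e3 : ∀ c, ‖ρ z * h z * (ph s l c * Real.exp (-π * (s * (l * u z - c)) ^ 2))‖ =
          ρ z * |h z| * (ph s l c * Real.exp (-π * (s * (l * u z - c)) ^ 2)) := by
        intro c
        have hp : 0 < ph s l c := Real.exp_pos _
        rw [Real.norm_eq_abs, abs_mul, abs_mul, abs_of_pos (hρ z),
          abs_of_pos (mul_pos hp (Real.exp_pos _))]
      simp only [e3]
      rw [integral_const_mul, k_val hs hl]
      ring
    simp only [e2]
    exact (summh (fun z => (mul_pos (hρ z) (Real.exp_pos _)).le) h0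
      (B := B) (fun z => by rw [abs_abs]; exact hh z)).mul_right _
  rw [← (hasSum_integral_of_summable_integral_norm hI hS).tsum_eq, ← tsum_mul_right]
  refine tsum_congr fun z => ?_
  rw [integral_const_mul, k_val hs hl]
  ring

theorem step {Z : Type} [Countable Z] [Nonempty Z] {s l : ℝ} (hs : 0 < s) (hl : 1 < l)
    (ρ u h : Z → ℝ) {B A : ℝ} (hρ : ∀ z, 0 < ρ z) (hh : ∀ z, |h z| ≤ B)
    (h0 : Summable fun z => ρ z * Real.exp (-π * (s * u z) ^ 2))
    (hA : A < ∑' z, ρ z * Real.exp (-π * (s * u z) ^ 2) * h z) :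
    ∃ c, l⁻¹ * A < ∑' z, ρ z * Real.exp (-π * (s * (l * u z - c)) ^ 2) * h z := by
  by_contra hc
  push Not at hc
  have hN := ph_val hs hl
  have hl0 : 0 < l⁻¹ := inv_pos.2 (by linarith)
  have pos : ∀ k : Z → ℝ, ∀ B' : ℝ, (∀ z, |k z| ≤ B') → (∀ z, 0 < k z) → Integrable fun c =>
      ph s l c * ∑' z, ρ z * Real.exp (-π * (s * (l * u z - c)) ^ 2) * k z := by
    intro k B' hk hk0
    refine Integrable.of_integral_ne_zero ?_
    rw [mix hs hl ρ u k hρ hk h0]
    refine (mul_pos ?_ (mul_pos hl0 hN)).ne'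
    obtain ⟨z0⟩ := ‹Nonempty Z›
    exact (summh (fun z => (mul_pos (hρ z) (Real.exp_pos _)).le) h0 hk).tsum_pos
      (fun z => (mul_pos (mul_pos (hρ z) (Real.exp_pos _)) (hk0 z)).le) z0
      (mul_pos (mul_pos (hρ z0) (Real.exp_pos _)) (hk0 z0))
  have hB : 0 ≤ B := by
    obtain ⟨z0⟩ := ‹Nonempty Z›
    exact (abs_nonneg _).trans (hh z0)
  have b1 : ∀ z, |h z + (B + 1)| ≤ 2 * B + 1 := fun z => by
    have := abs_le.1 (hh z)
    rw [abs_le]
    constructor <;> linarith [this.1, this.2]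
  have b2 : ∀ _z : Z, |B + 1| ≤ B + 1 := fun _ => (abs_of_nonneg (by linarith)).le
  have i1 := pos (fun z => h z + (B + 1)) _ b1 fun z => by
    have := (abs_le.1 (hh z)).1
    linarith
  have i2 := pos (fun _ => B + 1) _ b2 fun _ => by linarith
  have i3 : Integrable fun c =>
      ph s l c * ∑' z, ρ z * Real.exp (-π * (s * (l * u z - c)) ^ 2) * h z := by
    refine (i1.sub i2).congr (ae_of_all _ fun c => ?_)
    have s0 := summ1 hs hl ρ u hρ h0 c
    have w0 : ∀ z, 0 ≤ ρ z * Real.exp (-π * (s * (l * u z - c)) ^ 2) :=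
      fun z => (mul_pos (hρ z) (Real.exp_pos _)).le
    simp only [Pi.sub_apply]
    rw [← mul_sub, ← (summh w0 s0 b1).tsum_sub (summh w0 s0 b2)]
    congr 1
    refine tsum_congr fun z => ?_
    ring
  have le1 := integral_mono i3 ((ph_int hs hl).mul_const (l⁻¹ * A))
    fun c => mul_le_mul_of_nonneg_left (hc c) (Real.exp_pos _).le
  rw [mix hs hl ρ u h hρ hh h0, integral_mul_const] at le1
  have := mul_lt_mul_of_pos_right hA (mul_pos hl0 hN)
  nlinarith

variable {ι : Type} [DecidableEq ι]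

theorem all {Z : Type} [Countable Z] [Nonempty Z] (σ l : ι → ℝ) (hσ : ∀ a, 0 < σ a)
    (hl : ∀ a, 1 ≤ l a) (u : Z → ι → ℝ) (h : Z → ℝ) {B : ℝ} (hh : ∀ z, |h z| ≤ B) (S : Finset ι) :
    ∀ (ρ : Z → ℝ) (A : ℝ), (∀ z, 0 < ρ z) →
      (Summable fun z => ρ z * Real.exp (-π * ∑ a ∈ S, (σ a * u z a) ^ 2)) →
      A < ∑' z, ρ z * Real.exp (-π * ∑ a ∈ S, (σ a * u z a) ^ 2) * h z →
      ∃ c : ι → ℝ, (∀ b, l b = 1 → c b = 0) ∧ (∀ b, b ∉ S → c b = 0) ∧
        (∏ a ∈ S, (l a)⁻¹) * A <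
          ∑' z, ρ z * Real.exp (-π * ∑ a ∈ S, (σ a * (l a * u z a - c a)) ^ 2) * h z := by
  induction S using Finset.induction_on with
  | empty =>
    intro ρ A _ _ hA
    exact ⟨0, fun _ _ => rfl, fun _ _ => rfl, by simpa using hA⟩
  | insert b S hb ih =>
    intro ρ A hρ h0 hA
    have sp : ∀ (z : Z) (x : ℝ) (f : ι → ℝ), ρ z * Real.exp (-π * (x + ∑ a ∈ S, f a)) =
        ρ z * Real.exp (-π * ∑ a ∈ S, f a) * Real.exp (-π * x) := by
      intro z x f
      rw [mul_add, Real.exp_add]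
      ring
    simp only [Finset.sum_insert hb, sp] at h0 hA
    have hρ1 : ∀ z, 0 < ρ z * Real.exp (-π * ∑ a ∈ S, (σ a * u z a) ^ 2) :=
      fun z => mul_pos (hρ z) (Real.exp_pos _)
    obtain ⟨c0, hc1, hs0, hc0⟩ : ∃ c0 : ℝ, (l b = 1 → c0 = 0) ∧
        (Summable fun z => ρ z * Real.exp (-π * ∑ a ∈ S, (σ a * u z a) ^ 2) *
          Real.exp (-π * (σ b * (l b * u z b - c0)) ^ 2)) ∧
        (l b)⁻¹ * A < ∑' z, ρ z * Real.exp (-π * ∑ a ∈ S, (σ a * u z a) ^ 2) *
          Real.exp (-π * (σ b * (l b * u z b - c0)) ^ 2) * h z := by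
      rcases (hl b).eq_or_lt with h1 | h1
      · refine ⟨0, fun _ => rfl, ?_, ?_⟩
        · simpa only [← h1, one_mul, sub_zero] using h0
        · simpa only [← h1, one_mul, sub_zero, inv_one] using hA
      · obtain ⟨c0, hc0⟩ := step (hσ b) h1 _ (fun z => u z b) h hρ1 hh h0 hA
        exact ⟨c0, fun e => absurd e h1.ne', summ1 (hσ b) h1 _ (fun z => u z b) hρ1 h0 c0, hc0⟩
    obtain ⟨c, hc, hcS, hlt⟩ := ih
      (fun z => ρ z * Real.exp (-π * (σ b * (l b * u z b - c0)) ^ 2)) ((l b)⁻¹ * A)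
      (fun z => mul_pos (hρ z) (Real.exp_pos _))
      (by simpa only [mul_right_comm] using hs0)
      (hc0.trans_eq (tsum_congr fun z => by ring))
    refine ⟨Function.update c b c0, fun a ha => ?_, fun a ha => ?_, ?_⟩
    · by_cases e : a = b
      · subst e
        rw [Function.update_self]
        exact hc1 ha
      · rw [Function.update_of_ne e]
        exact hc a ha
    · rw [Finset.mem_insert, not_or] at ha
      rw [Function.update_of_ne ha.1]
      exact hcS a ha.2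
    · have e1 : ∀ z, ∑ a ∈ S, (σ a * (l a * u z a - Function.update c b c0 a)) ^ 2 =
          ∑ a ∈ S, (σ a * (l a * u z a - c a)) ^ 2 := fun z =>
        Finset.sum_congr rfl fun a ha => by
          rw [Function.update_of_ne (fun e : a = b => hb (e ▸ ha))]
      simp only [Finset.sum_insert hb, Finset.prod_insert hb, sp, e1, Function.update_self]
      refine lt_of_eq_of_lt (by ring) (hlt.trans_eq (tsum_congr fun z => by ring))

end Ce

theorem cell (_hD : DET) (hS : SUMM) (hR : RCA) : CELL := by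
  intro s ι _ _ G T P l h B a hG hP hT hl hh ha
  have hl0 : ∀ b, l b ≠ 0 := fun b => by
    have := hl b
    intro e
    linarith
  have dg : ∀ a b, ((Matrix.diagonal l) a b ≠ 0 ∨ (Matrix.diagonal fun a => (l a)⁻¹) a b ≠ 0) →
      a = b := by
    intro a b hab
    by_contra e
    simp [Matrix.diagonal_apply_ne _ e] at hab
  have hRc : Rc G (Matrix.diagonal l) (Matrix.diagonal fun a => (l a)⁻¹) (∑ b, |l b|) := by
    refine ⟨?_, fun a b hab => by rw [dg a b hab]; exact ⟨rfl, rfl⟩, fun a => ?_⟩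
    · rw [Matrix.diagonal_mul_diagonal, ← Matrix.diagonal_one]
      congr 1
      funext a
      exact mul_inv_cancel₀ (hl0 a)
    · refine Finset.sum_le_sum fun b _ => ?_
      by_cases e : a = b
      · subst e
        rw [Matrix.diagonal_apply_eq]
      · rw [Matrix.diagonal_apply_ne _ e, abs_zero]
        exact abs_nonneg _
  obtain ⟨hok, -, hch, hdv, haok, -⟩ := hR s ι G _ _ _ hG hRc
  have hA1 := haok T P hT fun a b hab => by rw [dg a b hab]
  have hRc1 : Rc (nr G l) 1 1 (Fintype.card ι) := by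
    refine ⟨mul_one _, fun a b hab => ?_, fun a => ?_⟩
    · have : a = b := by
        by_contra e
        simp [Matrix.one_apply_ne e] at hab
      rw [this]
      exact ⟨rfl, rfl⟩
    · rw [← Finset.card_univ, Finset.card_eq_sum_ones]
      push_cast
      refine Finset.sum_le_sum fun b _ => ?_
      by_cases e : a = b
      · subst e
        simp
      · simp [Matrix.one_apply_ne e]
  obtain ⟨-, -, -, -, -, hct⟩ := hR s ι (nr G l) 1 1 _ hok hRc1
  have hσ : ∀ b, 0 < T.sg b := fun b => lt_of_lt_of_le (inv_pos.2 hP) (hT.s1 b)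
  have : Nonempty (Lat T.U) := ⟨0⟩
  obtain ⟨c, hc, -, hlt⟩ := Ce.all (Z := Lat T.U) T.sg l hσ hl
    (fun z a => eval (cz z.1) (G.ch T a)) (fun z => h z.1) (fun z => hh z.1) T.U (fun _ => 1)
    (a * Mn G T) (fun _ => one_pos)
    (by simp only [one_mul]; exact hS s ι G T P hG hP hT)
    (by simp only [one_mul]; exact ha)
  obtain ⟨hA2, hch2⟩ := hct (rcT T (Matrix.diagonal l)) P c hA1
  refine ⟨c, hc, hA2, ?_⟩
  have eM : Mn (nr G l) (nrT T l c) = (∏ b ∈ T.U, (l b)⁻¹) * Mn G T := by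
    have h1 := (hdv T.U hT.bk fun a b hab => by rw [dg a b hab]).2
    have h2 : ((Matrix.diagonal fun a => (l a)⁻¹).submatrix (Subtype.val : T.U → ι)
        (Subtype.val : T.U → ι)).det = ∏ b ∈ T.U, (l b)⁻¹ := by
      rw [Matrix.submatrix_diagonal _ _ Subtype.val_injective, Matrix.det_diagonal,
        ← Finset.prod_coe_sort T.U]
      rfl
    have h3 : 0 ≤ ∏ b ∈ T.U, (l b)⁻¹ :=
      Finset.prod_nonneg fun b _ => inv_nonneg.2 (by linarith [hl b])
    rw [h2, abs_of_nonneg h3] at h1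
    change (nr G l).dv T.U * ∏ a ∈ T.U, (T.sg a)⁻¹ = _ * (G.dv T.U * ∏ a ∈ T.U, (T.sg a)⁻¹)
    rw [← mul_assoc, ← h1]
    rfl
  have eC : ∀ (z : ι → ℤ) (b : ι), eval (cz z) ((nr G l).ch (nrT T l c) b) =
      l b * eval (cz z) (G.ch T b) - c b := by
    intro z b
    have h1 : (nr G l).ch (nrT T l c) b = (nr G l).ch (rcT T (Matrix.diagonal l)) b - C (c b) :=
      hch2 b
    have h2 : (nr G l).ch (rcT T (Matrix.diagonal l)) b =
        ∑ d, C (Matrix.diagonal l b d) * G.ch T d := hch T b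
    rw [h1, h2, Finset.sum_eq_single b (fun d _ e => by
      rw [Matrix.diagonal_apply_ne _ e.symm, C_0, zero_mul]) (by simp), Matrix.diagonal_apply_eq]
    simp
  rw [eM, mul_left_comm]
  refine hlt.trans_eq ?_
  unfold Ex GT.nu
  refine tsum_congr fun z => ?_
  simp only [eC, one_mul, smul_eq_mul]
  rfl

end

end Vale.Agent.P057T.Cp
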