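import Vale.Agent.P057T.Cfg.Cp
import Vale.Agent.P057T.Eq.Derok
import Vale.Agent.P057T.Eq.Bdw

/-! Row CLS: weighted residue classes. -/

open MvPolynomial Finset
open scoped Real

namespace Vale.Agent.P057T.Cp

open Vale.Agent.P057T.Eq Vale.Agent.P057T.Eq.Derok

noncomputable section

set_option linter.unusedSectionVars false

namespace ClsA

variable {ι : Type} [Fintype ι] [DecidableEq ι]

/-- the affine substitution -/
def ph (w : ι → ℕ) (n : ℝ) (r : ι → ℝ) : ι → MvPolynomial ι ℝ :=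
  fun b => C (r b) + C (n ^ w b) * X b

def QQ (w : ι → ℕ) (n : ℝ) (r : ι → ℝ) (k : ℕ) (F : MvPolynomial ι ℝ) : Prop :=
  DZ w k F ∧ DZ w k (aeval (ph w n r) F) ∧
    DZ w ((k : ℤ) - 1) (aeval (ph w n r) F - C (n ^ k) * F)

variable {w : ι → ℕ} {n : ℝ} {r : ι → ℝ}

theorem QQ.mul {k k' : ℕ} {F F' : MvPolynomial ι ℝ} (h : QQ w n r k F) (h' : QQ w n r k' F') :
    QQ w n r (k + k') (F * F') := by
  refine ⟨?_, ?_, ?_⟩
  · push_cast
    exact h.1.mul h'.1
  · push_cast
    rw [map_mul]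
    exact h.2.1.mul h'.2.1
  · have e : aeval (ph w n r) (F * F') - C (n ^ (k + k')) * (F * F') =
        (aeval (ph w n r) F - C (n ^ k) * F) * aeval (ph w n r) F' +
          (C (n ^ k) * F) * (aeval (ph w n r) F' - C (n ^ k') * F') := by
      rw [map_mul, pow_add, C_mul]
      ring
    rw [e]
    push_cast
    exact ((h.2.2.mul h'.2.1).mono (by omega)).add
      (((h.1.cmul _).mul h'.2.2).mono (by omega))

theorem qq_C (c : ℝ) : QQ w n r 0 (C c) := by
  refine ⟨dz_C c, ?_, ?_⟩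
  · rw [aeval_C, algebraMap_eq]
    exact dz_C c
  · rw [aeval_C, algebraMap_eq, pow_zero, C_1, one_mul, sub_self]
    exact dz_zero _

theorem qq_X (hw : ∀ a, 1 ≤ w a) (a : ι) : QQ w n r (w a) (X a) := by
  refine ⟨dz_X a, ?_, ?_⟩
  · rw [aeval_X]
    exact ((dz_C _).mono (by omega)).add ((dz_X a).cmul _)
  · rw [aeval_X, ph, add_sub_cancel_right]
    exact (dz_C _).mono (by have := hw a; omega)

theorem qq_monomial (hw : ∀ a, 1 ≤ w a) (m : ι →₀ ℕ) (c : ℝ) :
    QQ w n r (Finsupp.weight w m) (monomial m c) := by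
  induction m using Finsupp.induction_linear generalizing c with
  | zero => simpa using qq_C (w := w) (n := n) (r := r) c
  | add m m' ih ih' =>
    have := (ih c).mul (ih' 1)
    rw [monomial_mul, mul_one] at this
    rw [map_add]
    exact this
  | single a k =>
    induction k with
    | zero => simpa using qq_C (w := w) (n := n) (r := r) c
    | succ k ihk =>
      have := ihk.mul (qq_X hw a)
      rw [X, monomial_mul, mul_one, ← Finsupp.single_add] at this
      have e : Finsupp.weight w (Finsupp.single a (k + 1)) =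
          Finsupp.weight w (Finsupp.single a k) + w a := by
        simp only [Finsupp.weight_single, smul_eq_mul]
        ring
      rw [e]
      exact this

theorem dz_aeval (hw : ∀ a, 1 ≤ w a) {k : ℤ} {F : MvPolynomial ι ℝ} (h : DZ w k F) :
    DZ w k (aeval (ph w n r) F) := by
  rw [F.as_sum, map_sum]
  exact dz_sum _ _ fun m hm => (qq_monomial hw m _).2.1.mono (h m hm)

theorem dz_aeval_sub (hw : ∀ a, 1 ≤ w a) {e : ℕ} {F : MvPolynomial ι ℝ}
    (h : IsWeightedHomogeneous w F e) :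
    DZ w ((e : ℤ) - 1) (aeval (ph w n r) F - C (n ^ e) * F) := by
  rw [F.as_sum, map_sum, mul_sum, ← sum_sub_distrib]
  refine dz_sum _ _ fun m hm => ?_
  have := (qq_monomial (n := n) (r := r) hw m (coeff m F)).2.2
  rwa [h (mem_support_iff.1 hm)] at this

theorem vars_ph {P : ι → Prop} {F : MvPolynomial ι ℝ} (h : ∀ j ∈ F.vars, P j) :
    ∀ j ∈ (aeval (ph w n r) F).vars, P j :=
  Chart.vars_aeval fun i hi => Chart.vars_add' (Chart.vars_C' _)
    (Chart.vars_mul' (Chart.vars_C' _) (Chart.vars_X' (h i hi)))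

theorem eval_ph (x : ι → ℝ) (F : MvPolynomial ι ℝ) :
    eval x (aeval (ph w n r) F) = eval (fun b => r b + n ^ w b * x b) F := by
  induction F using MvPolynomial.induction_on with
  | C a => simp
  | add p q hp hq => simp only [map_add, hp, hq]
  | mul_X p a hp =>
    rw [map_mul, map_mul, map_mul, hp, aeval_X, eval_X, ph, map_add, map_mul, eval_C, eval_C, eval_X]

/-- number of classes of the variable `b` -/
def nb (U : Finset ι) (M : ι → ℕ) (b : ι) : ℕ := if b ∈ U then M b else 1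

def rep (U : Finset ι) (M : ι → ℕ) (ρ : ∀ b, Fin (nb U M b)) : ι → ℤ := fun b => ((ρ b : ℕ) : ℤ)

theorem rep_mem (U : Finset ι) (M : ι → ℕ) (ρ : ∀ b, Fin (nb U M b)) : rep U M ρ ∈ Lat U := by
  intro b hb
  have h := (ρ b).2
  have h2 : nb U M b = 1 := if_neg hb
  have h3 : (ρ b : ℕ) = 0 := by omega
  simp [rep, h3]

theorem rep_lt (U : Finset ι) {M : ι → ℕ} (hM : ∀ b, 1 ≤ M b) (ρ : ∀ b, Fin (nb U M b)) (b : ι) :
    0 ≤ rep U M ρ b ∧ rep U M ρ b < M b := by
  have h := (ρ b).2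
  have h2 : nb U M b ≤ M b := by
    unfold nb
    split_ifs
    exacts [le_rfl, hM b]
  unfold rep
  omega

def jn (U : Finset ι) (M : ι → ℕ) (x : (∀ b, Fin (nb U M b)) × Lat U) : Lat U :=
  ⟨fun b => rep U M x.1 b + (M b : ℤ) * x.2.1 b, fun b hb => by
    show rep U M x.1 b + (M b : ℤ) * x.2.1 b = 0
    rw [rep_mem U M x.1 b hb, x.2.2 b hb]
    simp⟩

theorem jn_bij (U : Finset ι) {M : ι → ℕ} (hM : ∀ b, 1 ≤ M b) : Function.Bijective (jn U M) := by
  constructor
  · rintro ⟨ρ, z⟩ ⟨ρ', z'⟩ h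
    have h1 : ∀ b, rep U M ρ b + (M b : ℤ) * z.1 b = rep U M ρ' b + (M b : ℤ) * z'.1 b :=
      fun b => congrFun (congrArg Subtype.val h) b
    have h2 : ∀ b, rep U M ρ b = rep U M ρ' b := by
      intro b
      have h3 := congrArg (· % (M b : ℤ)) (h1 b)
      simp only [Int.add_mul_emod_self_left] at h3
      rwa [Int.emod_eq_of_lt (rep_lt U hM ρ b).1 (rep_lt U hM ρ b).2,
        Int.emod_eq_of_lt (rep_lt U hM ρ' b).1 (rep_lt U hM ρ' b).2] at h3
    refine Prod.ext (funext fun b => Fin.ext ?_) (Subtype.ext (funext fun b => ?_))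
    · have := h2 b
      unfold rep at this
      exact_mod_cast this
    · have h3 := h1 b
      rw [h2 b, add_right_inj] at h3
      have h4 : (M b : ℤ) ≠ 0 := by have := hM b; omega
      exact mul_left_cancel₀ h4 h3
  · intro z
    have hp : ∀ b, (0 : ℤ) < nb U M b := by
      intro b
      have := hM b
      unfold nb
      split_ifs <;> omega
    refine ⟨(fun b => ⟨(z.1 b % (nb U M b : ℤ)).toNat, ?_⟩,
      ⟨fun b => z.1 b / (M b : ℤ), fun b hb => ?_⟩), Subtype.ext (funext fun b => ?_)⟩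
    · have h1 := Int.emod_lt_of_pos (z.1 b) (hp b)
      have h2 := Int.emod_nonneg (z.1 b) (hp b).ne'
      omega
    · show z.1 b / (M b : ℤ) = 0
      rw [z.2 b hb, Int.zero_ediv]
    · show (((z.1 b % (nb U M b : ℤ)).toNat : ℕ) : ℤ) + (M b : ℤ) * (z.1 b / (M b : ℤ)) = z.1 b
      rw [Int.toNat_of_nonneg (Int.emod_nonneg _ (hp b).ne')]
      by_cases hb : b ∈ U
      · rw [show nb U M b = M b from if_pos hb]
        exact Int.emod_add_mul_ediv _ _
      · rw [z.2 b hb]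
        simp

theorem card_cls (U : Finset ι) (M : ι → ℕ) :
    Fintype.card (∀ b, Fin (nb U M b)) = ∏ b ∈ U, M b := by
  rw [Fintype.card_pi]
  simp only [Fintype.card_fin]
  unfold nb
  rw [prod_ite_mem, univ_inter]

end ClsA

open ClsA in
theorem cls (_ : DET) (hS : SUMM) (hR : RCA) : CLS := by
  intro s ι _ _ G T P n hG hP hT hn
  have hn0 : (0 : ℝ) < n := by exact_mod_cast hn
  have hD : ∀ a b, (Matrix.diagonal (fun a => (n : ℝ) ^ G.w a) a b ≠ 0 ∨
      Matrix.diagonal (fun a => ((n : ℝ) ^ G.w a)⁻¹) a b ≠ 0) → a = b := by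
    intro a b h
    by_contra hab
    rw [Matrix.diagonal_apply_ne _ hab, Matrix.diagonal_apply_ne _ hab] at h
    simp at h
  have hRc : Rc G (Matrix.diagonal fun a => (n : ℝ) ^ G.w a)
      (Matrix.diagonal fun a => ((n : ℝ) ^ G.w a)⁻¹)
      (∑ a, ∑ b, |Matrix.diagonal (fun a => (n : ℝ) ^ G.w a) a b|) := by
    refine ⟨?_, fun a b h => by rw [hD a b h]; exact ⟨rfl, rfl⟩, fun a => ?_⟩
    · rw [Matrix.diagonal_mul_diagonal, ← Matrix.diagonal_one]
      congr 1
      funext a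
      exact mul_inv_cancel₀ (pow_pos hn0 _).ne'
    · exact single_le_sum (f := fun a => ∑ b, |Matrix.diagonal (fun a => (n : ℝ) ^ G.w a) a b|)
        (fun _ _ => sum_nonneg fun _ _ => abs_nonneg _) (mem_univ a)
  obtain ⟨-, hth, -, hdv, -, -⟩ := hR s ι G _ _ _ hG hRc
  obtain ⟨hbk, hdv⟩ := hdv T.U hT.bk fun a b h => by rw [hD a b h]
  have hth' : ∀ a, (dlG G n).th a = C ((n : ℝ) ^ G.w a) * G.th a := by
    intro a
    refine (hth a).trans ?_
    rw [sum_eq_single a]
    · rw [Matrix.diagonal_apply_eq]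
    · intro b _ hb
      rw [Matrix.diagonal_apply_ne _ hb.symm]
      simp
    · simp
  have hp : ∀ r a, (dlT G T n r).p a =
      aeval (ph G.w n (cz r)) (G.ch T a) - C ((n : ℝ) ^ G.w a) * G.th a := by
    intro r a
    rw [← hth']
    rfl
  have hev : ∀ r a z, eval (cz z) ((dlG G n).ch (dlT G T n r) a) =
      eval (cz (dl G n r z)) (G.ch T a) := by
    intro r a z
    rw [GT.ch, hp, hth', add_sub_cancel, eval_ph]
    congr 2
    funext b
    simp [cz, dl]
  have hM : ∀ r, Mn (dlG G n) (dlT G T n r) * ∏ a ∈ T.U, (n : ℝ) ^ G.w a = Mn G T := by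
    intro r
    have h1 : (Matrix.diagonal fun a => ((n : ℝ) ^ G.w a)⁻¹).submatrix
        (Subtype.val : T.U → ι) (Subtype.val : T.U → ι) =
        Matrix.diagonal fun a : T.U => ((n : ℝ) ^ G.w a.1)⁻¹ :=
      Matrix.submatrix_diagonal _ _ Subtype.val_injective
    rw [h1, Matrix.det_diagonal, prod_coe_sort T.U fun a => ((n : ℝ) ^ G.w a)⁻¹,
      abs_of_pos (prod_pos fun a _ => inv_pos.2 (pow_pos hn0 _))] at hdv
    have h2 : (∏ a ∈ T.U, ((n : ℝ) ^ G.w a)⁻¹) * ∏ a ∈ T.U, (n : ℝ) ^ G.w a = 1 := by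
      rw [← prod_mul_distrib]
      exact prod_eq_one fun a _ => inv_mul_cancel₀ (pow_pos hn0 _).ne'
    show (dlG G n).dv T.U * (∏ a ∈ T.U, (T.sg a)⁻¹) * _ = G.dv T.U * ∏ a ∈ T.U, (T.sg a)⁻¹
    rw [dlG, hdv]
    calc _ = ((∏ a ∈ T.U, ((n : ℝ) ^ G.w a)⁻¹) * ∏ a ∈ T.U, (n : ℝ) ^ G.w a) *
          (G.dv T.U * ∏ a ∈ T.U, (T.sg a)⁻¹) := by ring
      _ = _ := by rw [h2, one_mul]
  refine ⟨fun r _ => ⟨⟨hbk, hT.qv, fun a ha => ?_, fun a ha => ?_, fun a ha => ?_, hT.s1, hT.s2⟩,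
    hev r, hM r⟩, fun h B a hB hlt => ?_⟩
  · rw [hp]
    exact Chart.vars_sub' (P := (· ∈ T.U)) (vars_ph (Chart.vars_add'
        (th_vars_sub hT.bk hT.qv ha) fun j hj => hT.pv a ha hj))
      (Chart.vars_mul' (Chart.vars_C' _) (th_vars_sub hT.bk hT.qv ha))
  · show G.Dl (G.w a) _
    rw [hp, dl_iff, GT.ch, map_add, add_sub_right_comm]
    exact (dz_aeval_sub hG.w1 (th_hm hG a)).add (dz_aeval hG.w1 ((dl_iff G _ _).1 (hT.pd a ha)))
  · show G.Lo (G.g a + 1) _
    rw [hp]
    have h1 : ∀ j ∈ (G.th a).vars, G.g j < G.g a + 1 := fun j hj =>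
      Nat.lt_succ_of_le (th_vars hG a j hj)
    exact Chart.vars_sub' (vars_ph (Chart.vars_add' h1 (hT.pl a ha)))
      (Chart.vars_mul' (Chart.vars_C' _) h1)
  · have hM1 : ∀ b, 1 ≤ n ^ G.w b := fun b => Nat.one_le_pow _ _ hn
    have hnu : ∀ r z, (dlG G n).nu (dlT G T n r) z = G.nu T (dl G n r z) := by
      intro r z
      unfold GT.nu
      simp only [hev]
      rfl
    have hsum : Summable fun z : Lat T.U => G.nu T z.1 • h z.1 := by
      refine Summable.of_norm_bounded ((hS s ι G T P hG hP hT).mul_right B) fun z => ?_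
      have h0 : 0 ≤ G.nu T z.1 := (Real.exp_pos _).le
      rw [norm_smul, Real.norm_eq_abs, Real.norm_eq_abs, abs_of_nonneg h0]
      exact mul_le_mul_of_nonneg_left (hB _) h0
    let e := Equiv.ofBijective _ (jn_bij T.U hM1)
    have hE : Ex G T h = ∑ ρ : ∀ b, Fin (nb T.U (fun b => n ^ G.w b) b),
        Ex (dlG G n) (dlT G T n (rep T.U _ ρ)) fun z => h (dl G n (rep T.U _ ρ) z) := by
      have h1 : Summable fun x => G.nu T (e x).1 • h (e x).1 := e.summable_iff.2 hsum
      rw [Ex, ← e.tsum_eq, h1.tsum_prod, tsum_fintype]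
      refine sum_congr rfl fun ρ _ => ?_
      unfold Ex
      refine tsum_congr fun z => ?_
      have h2 : (e (ρ, z)).1 = dl G n (rep T.U _ ρ) z.1 := by
        funext b
        show rep T.U _ ρ b + ((n ^ G.w b : ℕ) : ℤ) * z.1 b = _
        rw [Nat.cast_pow]
        rfl
      rw [hnu, h2]
    have hMn : ∀ r, Mn (dlG G n) (dlT G T n r) = (dlG G n).mn T.sg T.U := fun _ => rfl
    by_contra hc
    have hle : ∀ ρ : ∀ b, Fin (nb T.U (fun b => n ^ G.w b) b),
        (Ex (dlG G n) (dlT G T n (rep T.U _ ρ)) fun z => h (dl G n (rep T.U _ ρ) z)) ≤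
          a * (dlG G n).mn T.sg T.U := by
      intro ρ
      by_contra h1
      refine hc ⟨rep T.U _ ρ, rep_mem _ _ ρ, fun b => ?_, ?_⟩
      · have := rep_lt T.U hM1 ρ b
        rwa [Nat.cast_pow] at this
      · rw [hMn]
        exact not_le.1 h1
    have h3 := sum_le_sum (s := univ) fun ρ _ => hle ρ
    rw [← hE, sum_const, card_univ, card_cls, nsmul_eq_mul, Nat.cast_prod] at h3
    simp only [Nat.cast_pow] at h3
    rw [← hM 0, hMn] at hlt
    linarith

end

end Vale.Agent.P057T.Cp
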