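import Vale.Agent.P057T.Cp.Pull

/-! Change of coordinates, algebra. -/

set_option linter.unusedSectionVars false

open MvPolynomial Finset

namespace Vale.Agent.P057T.Cp

open Vale.Agent.P057T.Eq

namespace Ca

variable {ι : Type} [Fintype ι] [DecidableEq ι]

theorem sum_sum (P Q : Matrix ι ι ℝ) (f : ι → MvPolynomial ι ℝ) (a : ι) :
    ∑ b, C (P a b) * ∑ c, C (Q b c) * f c = ∑ c, C ((P * Q) a c) * f c := by
  simp only [mul_sum, Matrix.mul_apply, map_sum, sum_mul]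
  rw [sum_comm]
  refine sum_congr rfl fun c _ => sum_congr rfl fun b _ => ?_
  rw [C_mul, mul_assoc]

theorem mul_ne {R : Type*} [Semiring R] {P Q : Matrix ι ι R} {a b : ι} (h : (P * Q) a b ≠ 0) :
    ∃ c, P a c ≠ 0 ∧ Q c b ≠ 0 := by
  rw [Matrix.mul_apply] at h
  obtain ⟨c, -, hc⟩ := exists_ne_zero_of_sum_ne_zero h
  exact ⟨c, left_ne_zero_of_mul hc, right_ne_zero_of_mul hc⟩

theorem map_ne {M : Matrix ι ι ℤ} {a b : ι} (h : M.map (Int.cast : ℤ → ℝ) a b ≠ 0) : M a b ≠ 0 := by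
  intro h0; apply h; simp [h0]

theorem map_mul' {M M' : Matrix ι ι ℤ} (h : M * M' = 1) :
    M.map (Int.cast : ℤ → ℝ) * M'.map (Int.cast : ℤ → ℝ) = 1 := by
  have := congrArg (fun N : Matrix ι ι ℤ => N.map (Int.castRingHom ℝ)) h
  simp only [Matrix.map_mul] at this
  rw [Matrix.map_one _ (map_zero _) (map_one _)] at this
  exact this

theorem sub_mul {R : Type*} [Semiring R] (P Q : Matrix ι ι R) (V : Finset ι)
    (h : ∀ a ∈ V, ∀ c, P a c ≠ 0 → c ∈ V) :
    (P * Q).submatrix (Subtype.val : V → ι) (Subtype.val : V → ι) =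
      P.submatrix (Subtype.val : V → ι) (Subtype.val : V → ι) *
        Q.submatrix (Subtype.val : V → ι) (Subtype.val : V → ι) := by
  ext a b
  simp only [Matrix.submatrix_apply, Matrix.mul_apply]
  rw [Finset.sum_coe_sort V (fun c => P a.1 c * Q c b.1)]
  symm
  refine sum_subset (subset_univ _) fun c _ hc => ?_
  by_cases h0 : P a.1 c = 0
  · rw [h0, zero_mul]
  · exact absurd (h a.1 a.2 c h0) hc

theorem det_one {M M' : Matrix ι ι ℤ} (h : M * M' = 1) (V : Finset ι)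
    (hV : ∀ a ∈ V, ∀ c, M a c ≠ 0 → c ∈ V) :
    |((M'.map (Int.cast : ℤ → ℝ)).submatrix (Subtype.val : V → ι) (Subtype.val : V → ι)).det| = 1 := by
  have h1 := sub_mul M M' V hV
  rw [h, Matrix.submatrix_one _ Subtype.val_injective] at h1
  have h2 := congrArg Matrix.det h1
  rw [Matrix.det_one, Matrix.det_mul] at h2
  have h3 := Int.isUnit_iff_abs_eq.1 (IsUnit.of_mul_eq_one_right _ h2.symm)
  have h4 : ((M'.map (Int.cast : ℤ → ℝ)).submatrix (Subtype.val : V → ι) (Subtype.val : V → ι)).det =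
      (((M'.submatrix (Subtype.val : V → ι) (Subtype.val : V → ι)).det : ℤ) : ℝ) := by
    rw [Int.cast_det]; rfl
  rw [h4, ← Int.cast_abs, h3, Int.cast_one]

theorem sb_vars {M : Matrix ι ι ℤ} {P : ι → Prop} {F : MvPolynomial ι ℝ}
    (h : ∀ x ∈ F.vars, ∀ j, M x j ≠ 0 → P j) : ∀ j ∈ (aeval (sb M) F).vars, P j :=
  Chart.vars_aeval fun x hx j hj => h x hx j (Pl.cz_ne (Pl.lin_vars j hj))

theorem sb_hm {M : Matrix ι ι ℤ} {w : ι → ℕ} (hw : ∀ a b, M a b ≠ 0 → w a = w b) {e : ℕ}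
    {F : MvPolynomial ι ℝ} (hF : IsWeightedHomogeneous w F e) :
    IsWeightedHomogeneous w (aeval (sb M) F) e :=
  Chart.hom_aeval hF fun x => Pl.lin_hm fun a ha => (hw x a (Pl.cz_ne ha)).symm

theorem sb_dl {M : Matrix ι ι ℤ} {w : ι → ℕ} (hw : ∀ a b, M a b ≠ 0 → w a = w b) {e : ℕ}
    {F : MvPolynomial ι ℝ} (hF : ∀ m ∈ F.support, Finsupp.weight w m < e) :
    ∀ m ∈ (aeval (sb M) F).support, Finsupp.weight w m < e := by
  intro m hm
  rw [F.as_sum, map_sum] at hm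
  obtain ⟨m', hm', h1⟩ := mem_biUnion.1 (support_sum hm)
  have h2 := sb_hm hw (isWeightedHomogeneous_monomial w m' (coeff m' F) rfl)
  rw [h2 (mem_support_iff.1 h1)]
  exact hF m' hm'

theorem vars_comb {M' : Matrix ι ι ℤ} {P : ι → Prop} {f : ι → MvPolynomial ι ℝ} {a : ι}
    (h : ∀ b, M' a b ≠ 0 → ∀ j ∈ (f b).vars, P j) :
    ∀ j ∈ (∑ b, C (M' a b : ℝ) * f b).vars, P j := by
  refine Chart.vars_sum' fun b _ => ?_
  by_cases h0 : M' a b = 0
  · simp [h0]
  · exact Chart.vars_mul' (Chart.vars_C' _) (h b h0)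

variable {s : ℕ} {G : GT ι} {M M' : Matrix ι ι ℤ} {ρ : ℝ}

theorem ok (hG : G.Ok s) (h : Co G M M' ρ) : (co G M M').Ok s where
  w1 := hG.w1
  ws := hG.ws
  gs := hG.gs
  AB := by
    show G.A * M.map (Int.cast : ℤ → ℝ) * (M'.map (Int.cast : ℤ → ℝ) * G.B) = 1
    rw [Matrix.mul_assoc, ← Matrix.mul_assoc (M.map _), map_mul' h.inv, Matrix.one_mul, hG.AB]
  blk := by
    rintro a b (hab | hab)
    · obtain ⟨c, h1, h2⟩ := mul_ne hab
      obtain ⟨h3, h4⟩ := hG.blk a c (Or.inl h1)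
      obtain ⟨h5, h6⟩ := h.blk c b (Or.inl (map_ne h2))
      exact ⟨h3.trans h5, h4.trans h6⟩
    · obtain ⟨c, h1, h2⟩ := mul_ne hab
      obtain ⟨h3, h4⟩ := h.blk a c (Or.inr (map_ne h1))
      obtain ⟨h5, h6⟩ := hG.blk c b (Or.inr h2)
      exact ⟨h3.trans h5, h4.trans h6⟩
  qh := by
    intro a
    refine IsWeightedHomogeneous.sum _ _ _ fun b _ => ?_
    by_cases h0 : M' a b = 0
    · rw [h0, Int.cast_zero, C_0, zero_mul]; exact isWeightedHomogeneous_zero _ _ _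
    · refine IsWeightedHomogeneous.C_mul ?_ _
      have : G.w a = G.w b := (h.blk a b (Or.inr h0)).2
      show IsWeightedHomogeneous G.w _ (G.w a)
      rw [this]
      exact sb_hm (fun x y hxy => (h.blk x y (Or.inl hxy)).2) (hG.qh b)
  ql := by
    intro a
    refine vars_comb (P := fun j => G.g j < G.g a) fun b hb => sb_vars fun x hx j hj => ?_
    rw [← (h.blk x j (Or.inl hj)).1, (h.blk a b (Or.inr hb)).1]
    exact hG.ql b x hx
  qe := by
    intro a ha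
    refine sum_eq_zero fun b _ => ?_
    by_cases h0 : M' a b = 0
    · simp [h0]
    · rw [hG.qe b (h.ex a b (Or.inr h0) ha), map_zero, mul_zero]

theorem th (h : M * M' = 1) (a : ι) : (co G M M').th a = aeval (sb M) (G.th a) := by
  have e1 := sum_sum (G.A * M.map (Int.cast : ℤ → ℝ)) (M'.map (Int.cast : ℤ → ℝ))
    (fun c => aeval (sb M) (G.q c)) a
  rw [Matrix.mul_assoc, map_mul' h, Matrix.mul_one] at e1
  have e2 := sum_sum G.A (M.map (Int.cast : ℤ → ℝ)) X a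
  have l1 : (co G M M').th a = ∑ b, C ((G.A * M.map (Int.cast : ℤ → ℝ)) a b) * X b -
      ∑ b, C ((G.A * M.map (Int.cast : ℤ → ℝ)) a b) *
        ∑ c, C ((M'.map (Int.cast : ℤ → ℝ)) b c) * aeval (sb M) (G.q c) := by
    rw [← sum_sub_distrib]
    exact sum_congr rfl fun b _ => mul_sub _ _ _
  have l2 : aeval (sb M) (G.th a) = ∑ b, C (G.A a b) * ∑ c, C ((M.map (Int.cast : ℤ → ℝ)) b c) * X c -
      ∑ c, C (G.A a c) * aeval (sb M) (G.q c) := by
    rw [← sum_sub_distrib, GT.th, map_sum]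
    refine sum_congr rfl fun b _ => ?_
    rw [map_mul, map_sub, aeval_C, aeval_X, algebraMap_eq, mul_sub]
    rfl
  rw [l1, l2, e1, e2]

theorem ch (h : M * M' = 1) (T : AT ι) (a : ι) :
    (co G M M').ch (coT T M) a = aeval (sb M) (G.ch T a) := by
  unfold GT.ch
  rw [map_add, th h]
  rfl

theorem ev (M : Matrix ι ι ℤ) (F : MvPolynomial ι ℝ) (z : ι → ℤ) :
    eval (cz z) (aeval (sb M) F) = eval (cz (M.mulVec z)) F := by
  induction F using MvPolynomial.induction_on with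
  | C a => simp
  | add p q hp hq => simp only [map_add, hp, hq]
  | mul_X p i hp =>
    simp only [map_mul, hp, aeval_X, eval_X]
    congr 1
    simp [sb, lin, cz, Matrix.mulVec, dotProduct]

theorem lat {U : Finset ι} {N : Matrix ι ι ℤ} (hN : ∀ a b, N a b ≠ 0 → (a ∈ U ↔ b ∈ U))
    {z : ι → ℤ} (hz : z ∈ Lat U) : N.mulVec z ∈ Lat U := by
  intro a ha
  refine sum_eq_zero fun b _ => ?_
  by_cases h0 : N a b = 0
  · simp [h0]
  · have : z b = 0 := hz b fun hb => ha ((hN a b h0).2 hb)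
    simp [this]

theorem aok (h : Co G M M' ρ) {T : AT ι} {P : ℝ} (hA : G.AOk T P)
    (hU : ∀ a b, (M a b ≠ 0 ∨ M' a b ≠ 0) → (a ∈ T.U ↔ b ∈ T.U)) : (co G M M').AOk (coT T M) P where
  bk := by
    rintro a b (hab | hab)
    · obtain ⟨c, h1, h2⟩ := mul_ne hab
      exact (hA.bk a c (Or.inl h1)).trans (hU c b (Or.inl (map_ne h2)))
    · obtain ⟨c, h1, h2⟩ := mul_ne hab
      exact (hU a c (Or.inr (map_ne h1))).trans (hA.bk c b (Or.inr h2))
  qv := fun a ha => vars_comb (P := fun j => j ∈ T.U) fun b hb => sb_vars fun x hx j hj =>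
    (hU x j (Or.inl hj)).1 (hA.qv b ((hU a b (Or.inr hb)).1 ha) hx)
  pv := fun a ha => sb_vars (P := fun j => j ∈ T.U) fun x hx j hj =>
    (hU x j (Or.inl hj)).1 (hA.pv a ha hx)
  pd := fun a ha => sb_dl (fun x y hxy => (h.blk x y (Or.inl hxy)).2) (hA.pd a ha)
  pl := fun a ha => sb_vars (P := fun j => G.g j < G.g a + 1) fun x hx j hj => by
    rw [← (h.blk x j (Or.inl hj)).1]
    exact hA.pl a ha x hx
  s1 := hA.s1
  s2 := hA.s2

theorem mn (h : M * M' = 1) {T : AT ι}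
    (hU : ∀ a b, (M a b ≠ 0 ∨ M' a b ≠ 0) → (a ∈ T.U ↔ b ∈ T.U)) :
    Mn (co G M M') (coT T M) = Mn G T := by
  have e1 : (co G M M').dv T.U = G.dv T.U := by
    show |((M'.map (Int.cast : ℤ → ℝ) * G.B).submatrix _ _).det| = _
    rw [sub_mul _ _ T.U (fun a ha c hc => (hU a c (Or.inr (map_ne hc))).1 ha), Matrix.det_mul,
      abs_mul, det_one h T.U (fun a ha c hc => (hU a c (Or.inl hc)).1 ha), one_mul]
    rfl
  show (co G M M').dv T.U * _ = G.dv T.U * _
  rw [e1]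
  rfl

theorem ex (h : M * M' = 1) {T : AT ι}
    (hU : ∀ a b, (M a b ≠ 0 ∨ M' a b ≠ 0) → (a ∈ T.U ↔ b ∈ T.U))
    {E : Type} [NormedAddCommGroup E] [NormedSpace ℝ E] (f : (ι → ℤ) → E) :
    Ex (co G M M') (coT T M) (fun z => f (M.mulVec z)) = Ex G T f := by
  have h' : M' * M = 1 := mul_eq_one_comm.1 h
  let e : Lat T.U ≃ Lat T.U :=
    { toFun := fun z => ⟨M.mulVec z.1, lat (fun a b hab => hU a b (Or.inl hab)) z.2⟩
      invFun := fun z => ⟨M'.mulVec z.1, lat (fun a b hab => hU a b (Or.inr hab)) z.2⟩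
      left_inv := fun z => Subtype.ext (by simp [Matrix.mulVec_mulVec, h'])
      right_inv := fun z => Subtype.ext (by simp [Matrix.mulVec_mulVec, h]) }
  unfold Ex
  rw [← e.tsum_eq (fun z : Lat T.U => G.nu T z.1 • f z.1)]
  refine tsum_congr fun z => ?_
  have : (co G M M').nu (coT T M) z.1 = G.nu T (M.mulVec z.1) := by
    unfold GT.nu
    simp only [ch h, ev]
    rfl
  rw [this]
  rfl

end Ca

theorem coa : COA := by
  intro s ι _ _ G M M' ρ hG h
  exact ⟨Ca.ok hG h, Ca.th h.inv, Ca.ch h.inv, Ca.ev M, fun T P _ hA hU =>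
    ⟨Ca.aok h hA hU, Ca.mn h.inv hU, fun E _ _ f => Ca.ex h.inv hU f⟩⟩

end Vale.Agent.P057T.Cp
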