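import Vale.Agent.P057T.Cfg.Cp

/-!
Change of coordinates keeps regularity.
-/

open MvPolynomial Finset
open scoped Real

namespace Vale.Agent.P057T.Cp

open Vale.Agent.P057T.Eq

noncomputable section

namespace CorH16

variable {ι : Type} [Fintype ι] [DecidableEq ι]

theorem big_mono (G : GT ι) (g : ℕ) {H H' : ℝ} (h : H' ≤ H) (hb : G.Big g H) : G.Big g H' := by
  intro e k I h1 h2 h3 h4 h5
  obtain ⟨b, hb1, hb2⟩ := h5
  exact hb e k I h1 h2 h3 h4 ⟨b, hb1, hb2.trans h⟩

theorem sb_sb (M M' : Matrix ι ι ℤ) (h : M * M' = 1) (a : ι) :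
    aeval (sb M') (sb M a) = (X a : MvPolynomial ι ℝ) := by
  have e1 : aeval (sb M') (sb M a) = ∑ b, C ((M a b : ℤ) : ℝ) * sb M' b := by
    unfold sb lin
    rw [map_sum]
    refine Finset.sum_congr rfl fun b _ => ?_
    rw [map_mul, aeval_C, aeval_X]
    rfl
  rw [e1]
  have e2 : ∀ b, C ((M a b : ℤ) : ℝ) * sb M' b =
      ∑ c, C (((M a b * M' b c : ℤ) : ℝ)) * (X c : MvPolynomial ι ℝ) := by
    intro b
    unfold sb lin
    rw [Finset.mul_sum]
    refine Finset.sum_congr rfl fun c _ => ?_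
    rw [← mul_assoc, ← C_mul]
    simp only [cz, Int.cast_mul]
  simp only [e2]
  rw [Finset.sum_comm]
  have e3 : ∀ c, ∑ b, C (((M a b * M' b c : ℤ) : ℝ)) * (X c : MvPolynomial ι ℝ) =
      if a = c then X c else 0 := by
    intro c
    rw [← Finset.sum_mul, ← map_sum, ← Int.cast_sum, ← Matrix.mul_apply, h, Matrix.one_apply]
    split_ifs <;> simp
  simp only [e3]
  simp

theorem aeval_sb_sb (M M' : Matrix ι ι ℤ) (h : M * M' = 1) (F : MvPolynomial ι ℝ) :
    aeval (sb M') (aeval (sb M) F) = F := by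
  have e : (aeval (sb M') : MvPolynomial ι ℝ →ₐ[ℝ] MvPolynomial ι ℝ).comp (aeval (sb M)) =
      AlgHom.id ℝ _ := by
    refine MvPolynomial.algHom_ext fun a => ?_
    rw [AlgHom.comp_apply, aeval_X, sb_sb M M' h, AlgHom.id_apply]
  exact DFunLike.congr_fun e F

theorem cA (G : GT ι) (M M' : Matrix ι ι ℤ) :
    (co G M M').A = G.A * M.map (Int.cast : ℤ → ℝ) := rfl
theorem cg (G : GT ι) (M M' : Matrix ι ι ℤ) : (co G M M').g = G.g := rfl
theorem cw (G : GT ι) (M M' : Matrix ι ι ℤ) : (co G M M').w = G.w := rfl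
theorem cex (G : GT ι) (M M' : Matrix ι ι ℤ) : (co G M M').ex = G.ex := rfl

theorem cast_mul (M N : Matrix ι ι ℤ) : (M * N).map (Int.cast : ℤ → ℝ) =
    M.map (Int.cast : ℤ → ℝ) * N.map (Int.cast : ℤ → ℝ) := by
  ext a b
  simp only [Matrix.map_apply, Matrix.mul_apply, Int.cast_sum, Int.cast_mul]

theorem cast_one : (1 : Matrix ι ι ℤ).map (Int.cast : ℤ → ℝ) = 1 := by
  ext a b
  simp only [Matrix.map_apply, Matrix.one_apply]
  split_ifs <;> simp

theorem small_co (G : GT ι) (M M' : Matrix ι ι ℤ) (ρ η : ℝ) (g : ℕ) (hη : 0 ≤ η)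
    (hC : Co G M M' ρ) (hs : G.Small g η) : (co G M M').Small g (ρ * η) := by
  intro j hj hg
  rw [cex] at hj
  rw [cg] at hg
  have hM : M' * M = 1 := mul_eq_one_comm.1 hC.inv
  have hv : ∀ i, ∃ v : ι → ℝ, i ∈ G.ex → M i j ≠ 0 →
      (∀ i' ∈ G.ex, v i' = if i' = i then 1 else 0) ∧
      (∀ i', v i' ≠ 0 → G.g i' = G.g i ∧ G.w i' = G.w i) ∧ ∀ a, |∑ b, G.A a b * v b| ≤ η := by
    intro i
    by_cases h : i ∈ G.ex ∧ M i j ≠ 0
    · obtain ⟨v, hv⟩ := hs i h.1 (((hC.blk i j (Or.inl h.2)).1).trans hg)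
      exact ⟨v, fun _ _ => hv⟩
    · exact ⟨0, fun h1 h2 => (h ⟨h1, h2⟩).elim⟩
  choose v hv using hv
  let u : ι → ℝ := fun b => ∑ i ∈ G.ex, (M i j : ℝ) * v i b
  have hu : ∀ b ∈ G.ex, u b = M b j := by
    intro b hb
    have e : ∀ i ∈ G.ex, (M i j : ℝ) * v i b = if b = i then (M i j : ℝ) else 0 := by
      intro i hi
      by_cases h : M i j = 0
      · simp [h]
      · rw [(hv i hi h).1 b hb]
        split_ifs <;> simp
    show ∑ i ∈ G.ex, (M i j : ℝ) * v i b = _
    rw [Finset.sum_congr rfl e, Finset.sum_ite_eq, if_pos hb]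
  refine ⟨fun i => ∑ b, (M' i b : ℝ) * u b, ?_, ?_, ?_⟩
  · intro i hi
    rw [cex] at hi
    have e : ∀ b, (M' i b : ℝ) * u b = ((M' i b * M b j : ℤ) : ℝ) := by
      intro b
      by_cases h : M' i b = 0
      · simp [h]
      · rw [hu b (hC.ex i b (Or.inr h) hi), Int.cast_mul]
    show ∑ b, (M' i b : ℝ) * u b = _
    simp only [e]
    rw [← Int.cast_sum, ← Matrix.mul_apply, hM, Matrix.one_apply]
    split_ifs <;> simp
  · intro i hi
    rw [cg, cw]
    obtain ⟨b, -, hb⟩ := Finset.exists_ne_zero_of_sum_ne_zero hi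
    have h1 : M' i b ≠ 0 := fun h => hb (by simp [h])
    have h2 : u b ≠ 0 := fun h => hb (by simp [h])
    obtain ⟨i0, hi0, h3⟩ := Finset.exists_ne_zero_of_sum_ne_zero h2
    have h4 : M i0 j ≠ 0 := fun h => h3 (by simp [h])
    have h5 : v i0 b ≠ 0 := fun h => h3 (by simp [h])
    have k1 := hC.blk i b (Or.inr h1)
    have k2 := (hv i0 hi0 h4).2.1 b h5
    have k3 := hC.blk i0 j (Or.inl h4)
    exact ⟨k1.1.trans (k2.1.trans k3.1), k1.2.trans (k2.2.trans k3.2)⟩
  · intro a
    rw [cA]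
    have e1 : ∑ b, (G.A * M.map (Int.cast : ℤ → ℝ)) a b * ∑ c, (M' b c : ℝ) * u c =
        ∑ b, G.A a b * u b := by
      have e : (G.A * M.map (Int.cast : ℤ → ℝ)).mulVec ((M'.map (Int.cast : ℤ → ℝ)).mulVec u) =
          G.A.mulVec u := by
        rw [Matrix.mulVec_mulVec, Matrix.mul_assoc, ← cast_mul, hC.inv, cast_one, Matrix.mul_one]
      exact congrFun e a
    have e2 : ∑ b, G.A a b * u b = ∑ i ∈ G.ex, (M i j : ℝ) * ∑ b, G.A a b * v i b := by
      simp only [u, Finset.mul_sum]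
      rw [Finset.sum_comm]
      refine Finset.sum_congr rfl fun i _ => Finset.sum_congr rfl fun b _ => ?_
      ring
    show |∑ b, (G.A * M.map (Int.cast : ℤ → ℝ)) a b * ∑ c, (M' b c : ℝ) * u c| ≤ _
    rw [e1, e2]
    calc |∑ i ∈ G.ex, (M i j : ℝ) * ∑ b, G.A a b * v i b|
        ≤ ∑ i ∈ G.ex, |(M i j : ℝ) * ∑ b, G.A a b * v i b| := Finset.abs_sum_le_sum_abs _ _
      _ ≤ ∑ i ∈ G.ex, |(M i j : ℝ)| * η := by
          refine Finset.sum_le_sum fun i hi => ?_
          by_cases h : M i j = 0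
          · simp [h]
          · rw [abs_mul]
            exact mul_le_mul_of_nonneg_left ((hv i hi h).2.2 a) (abs_nonneg _)
      _ ≤ ∑ i, |(M i j : ℝ)| * η :=
          Finset.sum_le_sum_of_subset_of_nonneg (Finset.subset_univ _)
            fun i _ _ => mul_nonneg (abs_nonneg _) hη
      _ ≤ ρ * η := by
          rw [← Finset.sum_mul]
          exact mul_le_mul_of_nonneg_right (hC.nb j) hη

theorem small_mono (G : GT ι) (g : ℕ) {η η' : ℝ} (h : η ≤ η') (hs : G.Small g η) :
    G.Small g η' := by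
  intro j hj hg
  obtain ⟨v, h1, h2, h3⟩ := hs j hj hg
  exact ⟨v, h1, h2, fun a => (h3 a).trans h⟩

end CorH16

open CorH16 in
theorem cor (hP : PULL) (hW : WDG) (hA : COA) : COR := by
  intro s ι _ _ G M M' WW P c Y L hS hc hL hC hR
  obtain ⟨hok, hth, -⟩ := hA s ι G M M' _ hR.ok hC
  have hM : M' * M = 1 := mul_eq_one_comm.1 hC.inv
  have hY := hS.Y1
  have hP2 : 0 ≤ P ^ 2 := sq_nonneg P
  refine ⟨hok, ?_, ?_, ?_⟩
  · obtain ⟨Um, Vm, h1, -, h3⟩ := hR.wd.bd
    refine hW s ι (co G M M') WW P (M' * Um) (Vm * M) hok ⟨hS.cd, hS.P2, le_rfl⟩ hR.wd.anti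
      hR.wd.nn ?_ ?_
    · rw [Matrix.mul_assoc, ← Matrix.mul_assoc Um, h1, Matrix.one_mul, hM]
    · intro a b
      rw [cA, cg]
      have e : (G.A * M.map (Int.cast : ℤ → ℝ)) * (M' * Um).map (Int.cast : ℤ → ℝ) =
          G.A * Um.map (Int.cast : ℤ → ℝ) := by
        rw [Matrix.mul_assoc, ← cast_mul, ← Matrix.mul_assoc M, hC.inv, Matrix.one_mul]
      have e' : ∑ c, (G.A * M.map (Int.cast : ℤ → ℝ)) a c * ((M' * Um) c b : ℝ) =
          ∑ c, G.A a c * (Um c b : ℝ) := congrFun (congrFun e a) b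
      rw [e']
      exact h3 a b
  · intro g hg
    refine (hP s ι ι G (co G M M') 1 hR.ok hok le_rfl).2 g _ ?_ ?_
    · intro k x hk hx
      rw [cex] at hx
      refine ⟨M', 1, ⟨?_, ?_, ?_⟩, ?_⟩
      · intro y a h
        rw [cg, cw]
        exact hC.blk y a (Or.inr h)
      · intro y
        rw [hth, aeval_sb_sb M M' hC.inv]
        have e : ∀ a, C ((1 : Matrix ι ι ℝ) y a) * G.th a = if y = a then G.th a else 0 := by
          intro a
          rw [Matrix.one_apply]
          split_ifs <;> simp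
        simp only [e]
        simp
      · intro y
        have e : ∀ a, |(1 : Matrix ι ι ℝ) y a| = if y = a then 1 else 0 := by
          intro a
          rw [Matrix.one_apply]
          split_ifs <;> simp
        simp only [e]
        simp
      · by_contra hn
        apply hk
        have h0 : ∀ a, (∑ y, k y * M' y a) * M a x = 0 := by
          intro a
          by_cases ha : a ∈ G.ex
          · have : M a x = 0 := by
              by_contra h
              exact hx (hC.ex a x (Or.inl h) ha)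
            rw [this, mul_zero]
          · have : ∑ y, k y * M' y a = 0 := by
              by_contra h
              exact hn ⟨a, ha, h⟩
            rw [this, zero_mul]
        have e : Matrix.vecMul (Matrix.vecMul k M') M = k := by
          rw [Matrix.vecMul_vecMul, hM, Matrix.vecMul_one]
        have e' : ∑ a, (∑ y, k y * M' y a) * M a x = k x := congrFun e x
        rw [← e']
        exact Finset.sum_eq_zero fun a _ => h0 a
    · rw [one_pow, one_mul]
      refine big_mono G g ?_ (hR.big g hg)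
      refine Real.exp_le_exp.2 (mul_le_mul_of_nonneg_left ?_ (by linarith))
      linarith
  · intro g hg
    have hw := hR.wd.nn g
    have hc0 : 0 < c := by linarith
    have p1 : 0 < c * (Y + (WW g + P ^ 2)) := mul_pos hc0 (by linarith)
    have p2 : c * (Y + (WW g + P ^ 2)) ≤ c * (Y + (L + P ^ 2) + WW g) :=
      mul_le_mul_of_nonneg_left (by linarith) hc0.le
    refine small_mono _ g ?_ (small_co G M M' _ _ g ?_ hC (hR.small g hg))
    · rw [← mul_assoc, ← Real.exp_add]
      refine mul_le_mul (Real.exp_le_exp.2 ?_) (inv_anti₀ p1 p2) (inv_nonneg.2 (p1.le.trans p2))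
        (Real.exp_pos _).le
      have : L ≤ c * L := le_mul_of_one_le_left hL hc
      nlinarith
    · exact mul_nonneg (Real.exp_pos _).le (inv_nonneg.2 (p1.le.trans p2))

end

end Vale.Agent.P057T.Cp
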