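import Vale.Agent.P057T.Cfg.Cp

/-! Towers of copies: algebra. -/

set_option linter.all false

open MvPolynomial Finset

namespace Vale.Agent.P057T.Cp

open Vale.Agent.P057T.Eq

namespace Cpa

variable {ι Γ K : Type} [Fintype ι] [DecidableEq ι] [Fintype Γ] [DecidableEq Γ]
  [Fintype K] [DecidableEq K] [Inhabited K] {col : ι → Finset Γ}

theorem rs_rs {e e' : Finset Γ} (h : e ⊆ e') (f : Γ → K) : rs e (rs e' f) = rs e f := by
  funext c
  simp only [rs]
  split_ifs with h1 h2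
  · rfl
  · exact absurd (h h1) h2
  · rfl

theorem vx_rs {a b : ι} (h : col b ⊆ col a) (f : Γ → K) :
    vx col (rs (col a) f) b = vx col f b :=
  Subtype.ext (Prod.ext rfl (rs_rs h f))

theorem vx_self (x : CV col K) : vx col x.1.2 x.1.1 = x := Subtype.ext (Prod.ext rfl x.2)

theorem vx_fst (f : Γ → K) (a : ι) : (vx col f a).1.1 = a := rfl

theorem vx_snd (f : Γ → K) (a : ι) : (vx col f a).1.2 = rs (col a) f := rfl

theorem vx_inj (f : Γ → K) : Function.Injective (vx col f) := fun a b h =>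
  congrArg (fun x : CV col K => x.1.1) h

theorem vx_snd_of (x : CV col K) {b : ι} (h : col x.1.1 = col b) : (vx col x.1.2 b).1.2 = x.1.2 := by
  rw [vx_snd, ← h]; exact x.2

theorem eq_vx {x y : CV col K} (h : x.1.2 = y.1.2) : y = vx col x.1.2 y.1.1 := by
  rw [h, vx_self]

/-- sums over the copies with the same choice -/
theorem sum_cv {M : Type*} [AddCommMonoid M] (x : CV col K) (F : CV col K → M)
    (hF : ∀ y, col y.1.1 ≠ col x.1.1 → F y = 0) :
    ∑ y : CV col K, (if x.1.2 = y.1.2 then F y else 0) = ∑ b, F (vx col x.1.2 b) := by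
  rw [← Finset.sum_filter]
  symm
  refine Finset.sum_bij_ne_zero (fun b _ _ => vx col x.1.2 b) ?_ ?_ ?_ ?_
  · intro b _ hb
    have h : col x.1.1 = col b := by
      by_contra h
      exact hb (hF _ fun h' => h h'.symm)
    exact mem_filter.2 ⟨mem_univ _, (vx_snd_of x h).symm⟩
  · intro a _ _ b _ _ h
    exact vx_inj _ h
  · intro y hy h0
    have h := eq_vx (mem_filter.1 hy).2
    exact ⟨y.1.1, mem_univ _, by rw [← h]; exact h0, h.symm⟩
  · intro _ _ _; rfl

theorem ren_congr {σ τ : Type} [DecidableEq σ] {f g : σ → τ} {F : MvPolynomial σ ℝ}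
    (h : ∀ a ∈ F.vars, f a = g a) : rename f F = rename g F := by
  have := hom_congr_vars (f₁ := (rename f : MvPolynomial σ ℝ →ₐ[ℝ] MvPolynomial τ ℝ).toRingHom)
    (f₂ := (rename g : MvPolynomial σ ℝ →ₐ[ℝ] MvPolynomial τ ℝ).toRingHom) (p₁ := F) (p₂ := F)
    (by ext; simp) (fun i hi _ => by simp [h i hi]) rfl
  exact this

theorem wt_map {σ τ : Type} (f : σ → τ) (u : τ → ℕ) (m : σ →₀ ℕ) :
    Finsupp.weight u (m.mapDomain f) = Finsupp.weight (fun a => u (f a)) m := by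
  rw [Finsupp.weight_apply, Finsupp.weight_apply, Finsupp.sum_mapDomain_index]
  · intro; simp
  · intro b m1 m2; simp [add_mul]

theorem wt_ren {σ τ : Type} (f : σ → τ) (u : τ → ℕ) (F : MvPolynomial σ ℝ) (P : ℕ → Prop)
    (h : ∀ m, coeff m F ≠ 0 → P (Finsupp.weight (fun a => u (f a)) m)) :
    ∀ m, coeff m (rename f F) ≠ 0 → P (Finsupp.weight u m) := by
  intro m hm
  obtain ⟨m', rfl, h1⟩ := coeff_rename_ne_zero f F m hm
  rw [wt_map]
  exact h _ h1

theorem cm_ne {M : Matrix ι ι ℝ} {x y : CV col K} (h : cm col K M x y ≠ 0) :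
    x.1.2 = y.1.2 ∧ M x.1.1 y.1.1 ≠ 0 := by
  unfold cm at h
  split_ifs at h with h1
  · exact ⟨h1, h⟩
  · exact absurd rfl h

variable {s : ℕ} {G : GT ι}

theorem ne_of {x y : CV col K} (h : (cp G col K).A x y ≠ 0 ∨ (cp G col K).B x y ≠ 0) :
    x.1.2 = y.1.2 ∧ (G.A x.1.1 y.1.1 ≠ 0 ∨ G.B x.1.1 y.1.1 ≠ 0) :=
  h.elim (fun h => ⟨(cm_ne h).1, Or.inl (cm_ne h).2⟩) fun h => ⟨(cm_ne h).1, Or.inr (cm_ne h).2⟩

theorem cm_mul {S : Type} [CommRing S] (M M' : Matrix ι ι S)
    (hM : ∀ a b, M a b ≠ 0 → col a = col b) (x z : CV col K) :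
    ∑ y : CV col K, (if x.1.2 = y.1.2 then M x.1.1 y.1.1 else 0) *
      (if y.1.2 = z.1.2 then M' y.1.1 z.1.1 else 0) =
      if x.1.2 = z.1.2 then (M * M') x.1.1 z.1.1 else 0 := by
  have h1 := sum_cv x (fun y => M x.1.1 y.1.1 * (if x.1.2 = z.1.2 then M' y.1.1 z.1.1 else 0))
    fun y hy => by
      by_cases h0 : M x.1.1 y.1.1 = 0
      · simp [h0]
      · exact absurd (hM _ _ h0).symm hy
  refine Eq.trans (Finset.sum_congr rfl fun y _ => ?_) (h1.trans ?_)
  · by_cases h : x.1.2 = y.1.2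
    · rw [if_pos h, if_pos h, h]
    · simp [h]
  · rw [Matrix.mul_apply]
    split_ifs <;> simp [vx_fst]

theorem one_cm {S : Type} [CommRing S] (x z : CV col K) :
    (if x.1.2 = z.1.2 then (1 : Matrix ι ι S) x.1.1 z.1.1 else 0) =
      (1 : Matrix (CV col K) (CV col K) S) x z := by
  simp only [Matrix.one_apply]
  by_cases h : x = z
  · subst h; simp
  · rw [if_neg h]
    split_ifs with h1 h2
    · exact absurd (Subtype.ext (Prod.ext h2 h1)) h
    · rfl
    · rfl

theorem ok (hG : G.Ok s) (hc : Col G col) : (cp G col K).Ok s where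
  w1 := fun x => hG.w1 _
  ws := fun x => hG.ws _
  gs := fun x => hG.gs _
  AB := by
    ext x z
    have := cm_mul G.A G.B (fun a b h => hc.blk a b (Or.inl h)) x z
    rw [hG.AB, one_cm] at this
    exact this
  blk := fun x y h => hG.blk _ _ (ne_of h).2
  qh := fun x m hm => wt_ren (vx col x.1.2) (cp G col K).w (G.q x.1.1) (fun n => n = G.w x.1.1)
    (fun m' h => hG.qh x.1.1 h) m hm
  ql := fun x y hy => by
    obtain ⟨b, hb, rfl⟩ := mem_vars_rename _ _ hy
    exact hG.ql x.1.1 b hb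
  qe := fun x hx => by
    have h : x.1.1 ∈ G.ex := (mem_filter.1 hx).2
    simp [cp, hG.qe _ h]

theorem q_vx (hc : Col G col) (f : Γ → K) (a : ι) :
    (cp G col K).q (vx col f a) = rename (vx col f) (G.q a) :=
  ren_congr fun b hb => vx_rs (hc.sub a b hb) f

theorem th (hc : Col G col) (f : Γ → K) (a : ι) :
    (cp G col K).th (vx col f a) = rename (vx col f) (G.th a) := by
  unfold GT.th
  have h1 := sum_cv (vx col f a) (fun y => C (G.A a y.1.1) * (X y - (cp G col K).q y))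
    fun y hy => by
      by_cases h0 : G.A a y.1.1 = 0
      · simp [h0]
      · exact absurd (hc.blk _ _ (Or.inl h0)).symm hy
  rw [map_sum]
  refine Eq.trans (Finset.sum_congr rfl fun y _ => ?_) (h1.trans (Finset.sum_congr rfl fun b _ => ?_))
  · by_cases h : (vx col f a).1.2 = y.1.2
    · rw [if_pos h]
      simp only [cp, cm, if_pos h, vx_fst]
    · rw [if_neg h]
      simp only [cp, cm, if_neg h, map_zero, zero_mul]
  · by_cases h0 : G.A a b = 0
    · simp [h0, vx_fst]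
    · have h := hc.blk _ _ (Or.inl h0)
      rw [vx_snd, vx_rs h.symm.subset, q_vx hc, vx_fst]
      simp

theorem ev_ren (f : Γ → K) (F : MvPolynomial ι ℝ) (z : CV col K → ℤ) :
    eval (cz z) (rename (vx col f) F) = eval (cz (pt col f z)) F := by
  rw [eval_rename]; rfl

theorem col_cp (hc : Col G col) : Col (cp G col K) (fun x => col x.1.1) where
  blk := fun x y h => hc.blk _ _ (ne_of h).2
  sub := fun x y hy => by
    obtain ⟨b, hb, rfl⟩ := mem_vars_rename _ _ hy
    exact hc.sub x.1.1 b hb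
  cov := fun x m hm c hcx => by
    obtain ⟨m', rfl, h1⟩ := coeff_rename_ne_zero _ _ m (mem_support_iff.1 hm)
    obtain ⟨b, hb, h2⟩ := mem_biUnion.1 (hc.cov x.1.1 m' (mem_support_iff.2 h1) hcx)
    refine mem_biUnion.2 ⟨vx col x.1.2 b, ?_, h2⟩
    rw [Finsupp.mem_support_iff, Finsupp.mapDomain_apply (vx_inj _)]
    exact Finsupp.mem_support_iff.1 hb

variable {T : AT ι} {P : ℝ}

theorem cl_fu : Cl T col (fu T col K) := fun x hx =>
  ⟨(mem_filter.1 hx).2, fun b hb _ => mem_filter.2 ⟨mem_univ _, hb⟩⟩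

theorem cl_img (f : Γ → K) : Cl T col (T.U.image (vx col f)) := fun x hx => by
  obtain ⟨a, ha, rfl⟩ := mem_image.1 hx
  exact ⟨ha, fun b hb h => mem_image.2 ⟨b, hb, (vx_rs h f).symm⟩⟩

theorem ch (hc : Col G col) (ht : ColT T col) (U' : Finset (CV col K)) (f : Γ → K) (a : ι)
    (ha : a ∈ T.U) :
    (cp G col K).ch (cpT T col U') (vx col f a) = rename (vx col f) (G.ch T a) := by
  unfold GT.ch
  rw [th hc, map_add]
  congr 1
  exact ren_congr fun b hb => vx_rs (ht a ha b hb) f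

theorem aok (hc : Col G col) (hT : G.AOk T P) (ht : ColT T col) {U' : Finset (CV col K)}
    (hU : Cl T col U') : (cp G col K).AOk (cpT T col U') P where
  bk := fun x y h => by
    obtain ⟨h1, h2⟩ := ne_of h
    have h3 := hc.blk _ _ h2
    have h4 := hT.bk _ _ h2
    constructor
    · intro hx
      have := (hU x hx).2 y.1.1 (h4.1 (hU x hx).1) h3.symm.subset
      rwa [← eq_vx h1] at this
    · intro hy
      have := (hU y hy).2 x.1.1 (h4.2 (hU y hy).1) h3.subset
      rwa [← eq_vx h1.symm] at this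
  qv := fun x hx y hy => by
    obtain ⟨b, hb, rfl⟩ := mem_vars_rename _ _ hy
    exact (hU x hx).2 b (hT.qv _ (hU x hx).1 hb) (hc.sub _ b hb)
  pv := fun x hx y hy => by
    obtain ⟨b, hb, rfl⟩ := mem_vars_rename _ _ hy
    exact (hU x hx).2 b (hT.pv _ (hU x hx).1 hb) (ht _ (hU x hx).1 b hb)
  pd := fun x hx m hm => wt_ren (vx col x.1.2) (cp G col K).w (T.p x.1.1) (fun n => n < G.w x.1.1)
    (fun m' h => hT.pd _ (hU x hx).1 m' (mem_support_iff.2 h)) m (mem_support_iff.1 hm)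
  pl := fun x hx y hy => by
    obtain ⟨b, hb, rfl⟩ := mem_vars_rename _ _ hy
    exact hT.pl _ (hU x hx).1 b hb
  s1 := fun x => hT.s1 _
  s2 := fun x => hT.s2 _

end Cpa

theorem cpa : CPA := fun _ _ _ _ _ _ _ _ _ _ _ _ _ hG hc =>
  ⟨Cpa.ok hG hc, Cpa.th hc, Cpa.ev_ren, Cpa.col_cp hc, fun _ _ hT ht =>
    ⟨Cpa.cl_fu, Cpa.cl_img, fun U' => ⟨Cpa.ch hc ht U', Cpa.aok hc hT ht⟩⟩⟩

end Vale.Agent.P057T.Cp
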