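import Vale.Agent.P057T.Cfg.Cp
import Vale.Agent.P057T.Eq.Det

/-! Row CPM: expected masses of copies. -/

open MvPolynomial Finset

namespace Vale.Agent.P057T.Cp.H97

open Vale.Agent.P057T.Eq

noncomputable section

set_option linter.unusedSectionVars false

variable {ι : Type} [Fintype ι] [DecidableEq ι]

theorem mn_empty (G : GT ι) (σ : ι → ℝ) : G.mn σ ∅ = 1 := by
  simp [GT.mn, DetP.dv_empty]

theorem mn_split (G : GT ι) (σ : ι → ℝ) {U V : Finset ι} (hV : G.Bk V) (h : V ⊆ U) :
    G.mn σ U = G.mn σ V * G.mn σ (U \ V) := by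
  unfold GT.mn
  rw [DetP.dv_split G hV h, ← prod_sdiff h]
  ring

theorem mn_fib {Λ : Type} [DecidableEq Λ] (G : GT ι) (σ : ι → ℝ) (lab : ι → Λ)
    (hl : ∀ a b, (G.A a b ≠ 0 ∨ G.B a b ≠ 0) → lab a = lab b) (S : Finset Λ) :
    ∀ U : Finset ι, G.Bk U → (∀ a ∈ U, lab a ∈ S) →
      G.mn σ U = ∏ l ∈ S, G.mn σ (U.filter fun a => lab a = l) := by
  induction S using Finset.induction_on with
  | empty =>
    intro U _ h
    have : U = ∅ := eq_empty_of_forall_notMem fun a ha => by simpa using h a ha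
    simp [this, mn_empty]
  | insert l S hl' ih =>
    intro U hU h
    have hb : G.Bk (U.filter fun a => lab a = l) := fun a b hab => by
      simp only [mem_filter]
      rw [hU a b hab, hl a b hab]
    have hb' : G.Bk (U \ U.filter fun a => lab a = l) := fun a b hab => by
      simp only [mem_sdiff]
      rw [hU a b hab, hb a b hab]
    rw [prod_insert hl', mn_split G σ hb (filter_subset _ _), ih _ hb' fun a ha => ?_]
    · congr 1
      refine prod_congr rfl fun l' h' => ?_
      congr 1
      ext a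
      simp only [mem_filter, mem_sdiff]
      constructor
      · rintro ⟨⟨h1, -⟩, h2⟩
        exact ⟨h1, h2⟩
      · rintro ⟨h1, h2⟩
        exact ⟨⟨h1, fun h3 => hl' (by rw [← h3.2, h2]; exact h')⟩, h2⟩
    · simp only [mem_filter, mem_sdiff] at ha
      rcases mem_insert.1 (h a ha.1) with h1 | h1
      · exact absurd ⟨ha.1, h1⟩ ha.2
      · exact h1

variable {Γ K : Type} [Fintype Γ] [DecidableEq Γ] [Fintype K] [DecidableEq K] [Inhabited K]

theorem vx_inj (col : ι → Finset Γ) (f : Γ → K) : Function.Injective (vx col f) :=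
  fun _ _ h => congrArg (fun x : CV col K => x.1.1) h

theorem mn_img {G : GT ι} {col : ι → Finset Γ} (hc : Col G col) (σ : ι → ℝ) (f : Γ → K)
    (V : Finset ι) :
    (cp G col K).mn (fun x => σ x.1.1) (V.image (vx col f)) = G.mn σ V := by
  unfold GT.mn
  rw [prod_image fun a _ b _ h => vx_inj col f h]
  congr 1
  unfold GT.dv
  rw [DetP.det_inj _ _ (fun a : V => vx col f a.1)
    (fun a b h => Subtype.ext (vx_inj col f h)) fun x => ?_]
  · congr 2
    ext a b
    simp only [Matrix.submatrix_apply, cp, cm, vx]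
    split_ifs with h
    · rfl
    · by_contra h1
      exact h (by rw [hc.blk a.1 b.1 (Or.inr (Ne.symm h1))])
  · simp only [mem_image]
    constructor
    · rintro ⟨a, ha, rfl⟩
      exact ⟨⟨a, ha⟩, rfl⟩
    · rintro ⟨a, rfl⟩
      exact ⟨a.1, a.2, rfl⟩

theorem vx_self (col : ι → Finset Γ) (x : CV col K) : vx col x.1.2 x.1.1 = x :=
  Subtype.ext (Prod.ext rfl x.2)

theorem mn_cl {G : GT ι} {T : AT ι} {col : ι → Finset Γ} (hc : Col G col)
    (U' : Finset (CV col K)) (hU : Cl T col U') (hb : (cp G col K).Bk U') :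
    Mn (cp G col K) (cpT T col U') =
      ∏ e : Finset Γ, G.mn T.sg (T.U.filter fun a => col a = e) ^ cn T col U' e := by
  show (cp G col K).mn (fun x => T.sg x.1.1) U' = _
  rw [mn_fib (cp G col K) _ (fun x => (col x.1.1, x.1.2)) ?_ univ _ hb fun _ _ => mem_univ _]
  · rw [Fintype.prod_prod_type]
    refine prod_congr rfl fun e _ => ?_
    unfold cn
    rw [← prod_const, prod_filter]
    refine prod_congr rfl fun f _ => ?_
    split_ifs with h
    · obtain ⟨h1, a, ha, h2, h3⟩ := h
      rw [← mn_img hc T.sg f]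
      congr 1
      ext x
      simp only [mem_filter, mem_image, Prod.mk.injEq]
      constructor
      · rintro ⟨h4, h5, h6⟩
        exact ⟨x.1.1, ⟨(hU x h4).1, h5⟩, by rw [← h6]; exact vx_self col x⟩
      · rintro ⟨b, ⟨hb1, hb2⟩, rfl⟩
        have e1 : (vx col f a).1.2 = f := by
          show rs (col a) f = f
          rw [h2, h1]
        have := (hU _ h3).2 b hb1 (by show col b ⊆ col a; rw [hb2, h2])
        rw [e1] at this
        refine ⟨this, hb2, ?_⟩
        show rs (col b) f = f
        rw [hb2, h1]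
    · rw [← mn_empty (cp G col K) fun x => T.sg x.1.1]
      congr 1
      refine eq_empty_of_forall_notMem fun x hx => h ?_
      simp only [mem_filter, Prod.mk.injEq] at hx
      obtain ⟨h4, h5, h6⟩ := hx
      refine ⟨by rw [← h5, ← h6]; exact x.2, x.1.1, (hU x h4).1, h5, ?_⟩
      rw [← h6, vx_self]
      exact h4
  · intro x y hxy
    simp only [cp, cm] at hxy
    by_cases h : x.1.2 = y.1.2
    · simp only [h, if_true] at hxy
      rw [h, hc.blk _ _ hxy]
    · simp [h] at hxy

theorem pt_zero {col : ι → Finset Γ} (f : Γ → K) {U : Finset ι} {z : CV col K → ℤ}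
    (hz : z ∈ Lat (U.image (vx col f))) {a : ι} (ha : a ∉ U) : pt col f z a = 0 :=
  hz _ fun h => by
    obtain ⟨b, hb, h1⟩ := mem_image.1 h
    exact ha (vx_inj col f h1 ▸ hb)

theorem res_pt {col : ι → Finset Γ} (f : Γ → K) {U : Finset ι} {z : CV col K → ℤ}
    (hz : z ∈ Lat (U.image (vx col f))) : res U (pt col f z) = pt col f z := by
  funext a
  unfold res
  split_ifs with h
  · rfl
  · exact (pt_zero f hz h).symm

/-- points of one copy -/
def eqv (col : ι → Finset Γ) (f : Γ → K) (U : Finset ι) : Lat (U.image (vx col f)) ≃ Lat U where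
  toFun z := ⟨pt col f z.1, fun _ ha => pt_zero f z.2 ha⟩
  invFun y := ⟨fun x => if x ∈ U.image (vx col f) then y.1 x.1.1 else 0, fun _ hx => if_neg hx⟩
  left_inv z := by
    refine Subtype.ext (funext fun x => ?_)
    simp only
    split_ifs with h
    · obtain ⟨a, -, rfl⟩ := mem_image.1 h
      rfl
    · exact (z.2 x h).symm
  right_inv y := by
    refine Subtype.ext (funext fun a => ?_)
    simp only [pt]
    split_ifs with h
    · rfl
    · exact (y.2 a fun ha => h (mem_image_of_mem _ ha)).symm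

theorem cpm (_ : DET) (hA : CPA) : CPM := by
  intro s ι Γ K _ _ _ _ _ _ _ G T P col hG hc _ hT hcT
  obtain ⟨-, -, h3, -, h5⟩ := hA s ι Γ K G col hG hc
  obtain ⟨-, -, h6⟩ := h5 T P hT hcT
  refine ⟨fun U' hU => mn_cl hc U' hU ((h6 U').2 hU).bk, fun f E _ _ h => ⟨mn_img hc T.sg f T.U, ?_⟩⟩
  unfold Ex
  rw [← (eqv col f T.U).tsum_eq]
  refine tsum_congr fun z => ?_
  show _ • h (res T.U (pt col f z.1)) = G.nu T (pt col f z.1) • h (pt col f z.1)
  rw [res_pt f z.2]
  congr 1
  unfold GT.nu
  congr 2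
  refine (sum_image (s := T.U) (g := vx col f) fun a _ b _ h => vx_inj col f h).trans ?_
  refine sum_congr rfl fun a ha => ?_
  rw [(h6 _).1 f a ha, h3]
  rfl

end

end Vale.Agent.P057T.Cp.H97
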