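import Vale.Agent.P057T.Cfg.Cp

/-! The tower of copies of a regular tower is regular. -/

set_option linter.all false

open MvPolynomial Finset

namespace Vale.Agent.P057T.Cp

open Vale.Agent.P057T.Eq

namespace CprP

variable {ι Γ K : Type} [Fintype ι] [DecidableEq ι] [Fintype Γ] [DecidableEq Γ]
  [Fintype K] [DecidableEq K] [Inhabited K] {col : ι → Finset Γ}

theorem vx_self (x : CV col K) : vx col x.1.2 x.1.1 = x :=
  Subtype.ext (Prod.ext rfl x.2)

theorem vx_inj (f : Γ → K) {a b : ι} (h : vx col f a = vx col f b) : a = b :=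
  congrArg (fun x : CV col K => x.1.1) h

theorem sum_cv {R : Type} [AddCommMonoid R] (x : CV col K) (φ : ι → R)
    (hφ : ∀ b, φ b ≠ 0 → col x.1.1 = col b) :
    ∑ y : CV col K, (if x.1.2 = y.1.2 then φ y.1.1 else 0) = ∑ b, φ b := by
  classical
  have h1 := Finset.sum_subtype (F := inferInstance)
    (p := fun p : ι × (Γ → K) => rs (col p.1) p.2 = p.2)
    (univ.filter fun p : ι × (Γ → K) => rs (col p.1) p.2 = p.2) (by simp)
    (fun p => if x.1.2 = p.2 then φ p.1 else 0)
  rw [← h1, sum_filter, Fintype.sum_prod_type]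
  refine sum_congr rfl fun b _ => ?_
  rw [sum_eq_single x.1.2]
  · by_cases h : φ b = 0
    · simp [h]
    · have := x.2
      rw [hφ b h] at this
      simp [this]
  · intro f _ hf
    simp [Ne.symm hf]
  · simp

theorem cm_mul {R : Type} [Semiring R] (M N : Matrix ι ι R)
    (hM : ∀ a b, M a b ≠ 0 → col a = col b) (x z : CV col K) :
    ∑ y : CV col K, (if x.1.2 = y.1.2 then M x.1.1 y.1.1 else 0) *
      (if y.1.2 = z.1.2 then N y.1.1 z.1.1 else 0) =
      if x.1.2 = z.1.2 then ∑ b, M x.1.1 b * N b z.1.1 else 0 := by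
  split_ifs with h
  · rw [← sum_cv x (fun b => M x.1.1 b * N b z.1.1) fun b hb => hM _ _ (left_ne_zero_of_mul hb)]
    refine sum_congr rfl fun y _ => ?_
    by_cases h1 : x.1.2 = y.1.2
    · rw [if_pos h1, if_pos h1, if_pos (h1.symm.trans h)]
    · rw [if_neg h1, if_neg h1, zero_mul]
  · refine sum_eq_zero fun y _ => ?_
    by_cases h1 : x.1.2 = y.1.2
    · rw [if_neg (fun h2 => h (h1.trans h2)), mul_zero]
    · rw [if_neg h1, zero_mul]

theorem wd (G : GT ι) (hc : Col G col) (WW : ℕ → ℝ) (h : G.Wd WW) : (cp G col K).Wd WW := by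
  obtain ⟨Um, Vm, h1, h2, h3⟩ := h.bd
  have hcol : ∀ a b, (Um a b ≠ 0 ∨ Vm a b ≠ 0) → col a = col b := by
    intro a b hab
    have := h2 (univ.filter fun c => col c = col a) (fun c d hcd => by
      simp [hc.blk c d hcd]) a b hab
    simp at this
    exact this.symm
  refine ⟨h.anti, h.nn, fun x y => if x.1.2 = y.1.2 then Um x.1.1 y.1.1 else 0,
    fun x y => if x.1.2 = y.1.2 then Vm x.1.1 y.1.1 else 0, ?_, ?_, ?_⟩
  · ext x z
    refine (cm_mul Um Vm (fun a b hab => hcol a b (Or.inl hab)) x z).trans ?_
    rw [← Matrix.mul_apply, h1, Matrix.one_apply, Matrix.one_apply]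
    by_cases hx : x = z
    · simp [hx]
    · rw [if_neg hx]
      split_ifs with a1 a2
      · exact absurd (Subtype.ext (Prod.ext a2 a1)) hx
      · rfl
      · rfl
  · intro V hV x y hxy
    have hf : x.1.2 = y.1.2 := by
      by_contra hf
      simp [hf] at hxy
    simp only [if_pos hf] at hxy
    have := h2 (univ.filter fun a => vx col x.1.2 a ∈ V) (fun a b hab => by
      simp only [mem_filter, mem_univ, true_and]
      apply hV
      have e : (vx col x.1.2 a).1.2 = (vx col x.1.2 b).1.2 := by
        simp only [vx]; rw [hc.blk a b hab]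
      simp only [cp, cm, if_pos e]
      exact hab) _ _ hxy
    simp only [mem_filter, mem_univ, true_and] at this
    rw [vx_self, hf, vx_self] at this
    exact this
  · intro x z
    have := cm_mul G.A (fun a b => (Um a b : ℝ)) (fun a b hab => hc.blk a b (Or.inl hab)) x z
    have e : ∑ c, (cp G col K).A x c * (((if c.1.2 = z.1.2 then Um c.1.1 z.1.1 else 0 : ℤ)) : ℝ) =
        if x.1.2 = z.1.2 then ∑ b, G.A x.1.1 b * (Um b z.1.1 : ℝ) else 0 := by
      rw [← this]
      refine sum_congr rfl fun c _ => ?_
      simp only [cp, cm]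
      congr 1
      split_ifs <;> simp
    rw [e]
    split_ifs
    · exact h3 _ _
    · rw [abs_zero]; exact (Real.exp_pos _).le

theorem small (G : GT ι) (hc : Col G col) (g : ℕ) (η : ℝ) (h : G.Small g η) :
    (cp G col K).Small g η := by
  intro j hj hg
  obtain ⟨v, h1, h2, h3⟩ := h j.1.1 (by simpa [cp] using hj) hg
  refine ⟨fun y => if y.1.2 = j.1.2 then v y.1.1 else 0, fun i hi => ?_, fun i hi => ?_,
    fun x => ?_⟩
  · have hi' : i.1.1 ∈ G.ex := by simpa [cp] using hi
    simp only [h1 _ hi']
    by_cases hx : i = j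
    · simp [hx]
    · rw [if_neg hx]
      split_ifs with a1 a2
      · exact absurd (Subtype.ext (Prod.ext a2 a1)) hx
      · rfl
      · rfl
  · have : v i.1.1 ≠ 0 := by
      intro h0; simp [h0] at hi
    exact h2 _ this
  · have := cm_mul G.A (fun a _ => v a) (fun a b hab => hc.blk a b (Or.inl hab)) x j
    simp only [cp, cm]
    rw [this]
    split_ifs
    · exact h3 _
    · rw [abs_zero]; exact (abs_nonneg _).trans (h3 j.1.1)

theorem sb_vx (f0 f : Γ → K) (b : ι) :
    sb (fun (y : CV col K) (a : ι) => if y = vx col f0 a then (1 : ℤ) else 0) (vx col f b) =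
      if vx col f b = vx col f0 b then X b else 0 := by
  simp only [sb, lin, cz]
  rw [sum_eq_single b]
  · split_ifs <;> simp
  · intro a _ ha
    rw [if_neg (fun h => ha (congrArg (fun x : CV col K => x.1.1) h).symm)]
    simp
  · simp

theorem kill (F : MvPolynomial ι ℝ) (σ : ι → MvPolynomial ι ℝ)
    (h : ∀ m ∈ F.support, ∃ b ∈ m.support, σ b = 0) : aeval σ F = 0 := by
  rw [F.as_sum, map_sum]
  refine sum_eq_zero fun m hm => ?_
  obtain ⟨b, hb, h0⟩ := h m hm
  rw [aeval_monomial, Finsupp.prod, prod_eq_zero hb, mul_zero]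
  rw [h0, zero_pow (Finsupp.mem_support_iff.1 hb)]

theorem pb (G : GT ι) (hc : Col G col)
    (hth : ∀ f a, (cp G col K).th (vx col f a) = rename (vx col f) (G.th a)) (f0 : Γ → K) :
    Pb G (cp G col K) (fun y a => if y = vx col f0 a then (1 : ℤ) else 0)
      (fun y a => if y = vx col f0 a then (1 : ℝ) else 0) 1 where
  gw := fun y a h => by
    have : y = vx col f0 a := by
      by_contra h1; simp [h1] at h
    subst this
    exact ⟨rfl, rfl⟩
  th := fun y => by
    have e := hth y.1.2 y.1.1
    rw [vx_self] at e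
    by_cases hy : y = vx col f0 y.1.1
    · have e2 := hth f0 y.1.1
      rw [← hy] at e2
      rw [e2, aeval_rename, sum_eq_single y.1.1]
      · rw [if_pos hy, C_1, one_mul]
        have : (sb (fun (y : CV col K) (a : ι) => if y = vx col f0 a then (1 : ℤ) else 0)) ∘
            vx col f0 = X := by
          funext b; simp only [Function.comp, sb_vx, if_true]
        rw [this, aeval_X_left_apply]
      · intro a _ ha
        rw [if_neg (fun h => ha (congrArg (fun x : CV col K => x.1.1) h).symm)]
        simp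
      · simp
    · have hz : ∑ a, C (if y = vx col f0 a then (1 : ℝ) else 0) * G.th a = 0 := by
        refine sum_eq_zero fun a _ => ?_
        rw [if_neg]
        · simp
        · intro h
          apply hy
          have : y.1.1 = a := congrArg (fun x : CV col K => x.1.1) h
          rw [this]; exact h
      rw [hz, e, aeval_rename]
      obtain ⟨c, hc1, hc2⟩ : ∃ c ∈ col y.1.1, y.1.2 c ≠ f0 c := by
        by_contra hn
        apply hy
        refine Subtype.ext (Prod.ext rfl ?_)
        rw [← y.2]
        funext c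
        simp only [vx, rs]
        split_ifs with h
        · by_contra h2; exact hn ⟨c, h, h2⟩
        · rfl
      have h0 : ∀ b, c ∈ col b → ((sb (fun (y : CV col K) (a : ι) =>
          if y = vx col f0 a then (1 : ℤ) else 0)) ∘ vx col y.1.2) b = 0 := by
        intro b hb
        simp only [Function.comp, sb_vx]
        rw [if_neg]
        intro h
        have := congrFun (congrArg (fun x : CV col K => x.1.2) h) c
        simp only [vx, rs, if_pos hb] at this
        exact hc2 this
      simp only [GT.th]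
      rw [map_sum]
      refine sum_eq_zero fun b _ => ?_
      by_cases hA : G.A y.1.1 b = 0
      · simp [hA]
      · have hb : c ∈ col b := hc.blk _ _ (Or.inl hA) ▸ hc1
        rw [map_mul, map_sub, aeval_X, h0 b hb, kill (G.q b) _ fun m hm => ?_]
        · simp
        · obtain ⟨b', h1, h2⟩ := mem_biUnion.1 (hc.cov b m hm hb)
          exact ⟨b', h1, h0 b' h2⟩
  nb := fun y => by
    rw [sum_eq_single y.1.1]
    · split_ifs <;> simp
    · intro a _ ha
      rw [if_neg (fun h => ha (congrArg (fun x : CV col K => x.1.1) h).symm), abs_zero]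
    · simp

end CprP

open CprP in
theorem cpr (hP : PULL) (hA : CPA) : CPR := by
  intro s ι Γ K _ _ _ _ _ _ _ G col WW c Y _ _ hc h
  obtain ⟨h1, h2, -⟩ := hA s ι Γ K G col h.ok hc
  refine ⟨h1, wd G hc WW h.wd, fun g hg => ?_, fun g hg => small G hc g _ (h.small g hg)⟩
  refine (hP s ι _ G (cp G col K) 1 h.ok h1 le_rfl).2 g _ (fun k x hk hx => ?_)
    (by rw [one_pow, one_mul]; exact h.big g hg)
  refine ⟨_, _, pb G hc h2 x.1.2, x.1.1, by simpa [cp] using hx, ?_⟩
  rw [vx_self, sum_eq_single x]
  · simpa using hk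
  · intro y _ hy
    rw [if_neg hy, mul_zero]
  · simp

end Vale.Agent.P057T.Cp
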