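import Vale.Agent.P057T.Cfg.Cp
import Vale.Agent.P057T.Eq.Summ

/-! Copies of a fibre. -/

open MvPolynomial Finset
open scoped Real

namespace Vale.Agent.P057T.Cp

open Vale.Agent.P057T.Eq Vale.Agent.P057T.Eq.Br

noncomputable section

set_option linter.unusedSectionVars false

namespace DblP

theorem tsum_pi_fin {α : Type} : ∀ (n : ℕ) (f : Fin n → α → ℂ),
    (∀ k, Summable fun a => ‖f k a‖) →
    (Summable fun x : Fin n → α => ‖∏ k, f k (x k)‖) ∧
      ∑' x : Fin n → α, ∏ k, f k (x k) = ∏ k, ∑' a, f k a := by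
  intro n
  induction n with
  | zero =>
    intro f _
    refine ⟨Summable.of_finite, ?_⟩
    simp
  | succ n ih =>
    intro f hf
    obtain ⟨h1, h2⟩ := ih (fun k => f k.succ) fun k => hf k.succ
    have e : ∀ u : α × (Fin n → α), ∏ k, f k (Fin.consEquiv (fun _ => α) u k) =
        f 0 u.1 * ∏ k : Fin n, f k.succ (u.2 k) := by
      intro u
      rw [Fin.prod_univ_succ]
      rfl
    constructor
    · rw [← (Fin.consEquiv fun _ => α).summable_iff]
      refine (Summable.mul_norm (hf 0) h1).congr fun u => ?_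
      simp only [Function.comp, e]
    · rw [← (Fin.consEquiv fun _ => α).tsum_eq, Fin.prod_univ_succ, ← h2,
        tsum_mul_tsum_of_summable_norm (hf 0) h1]
      exact tsum_congr e

theorem tsum_pi {α K : Type} [Fintype K] (f : K → α → ℂ) (hf : ∀ k, Summable fun a => ‖f k a‖) :
    ∑' x : K → α, ∏ k, f k (x k) = ∏ k, ∑' a, f k a := by
  let e := (Fintype.equivFin K).symm
  have h := (tsum_pi_fin _ (fun i => f (e i)) fun i => hf (e i)).2
  rw [← e.prod_comp fun k => ∑' a, f k a, ← h, ← (e.arrowCongr (Equiv.refl α)).tsum_eq]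
  refine tsum_congr fun x => ?_
  rw [← e.prod_comp]
  simp [Equiv.arrowCongr]

variable {ι K : Type} [Fintype ι] [DecidableEq ι] [Fintype K] [DecidableEq K] [Inhabited K]

theorem c1_pos {W : Finset ι} {a : ι} (h : a ∈ W) : c1 W a = ∅ := if_pos h

theorem c1_neg {W : Finset ι} {a : ι} (h : a ∉ W) : c1 W a = univ := if_neg h

theorem mem_of_sub {W : Finset ι} {a b : ι} (ha : a ∈ W) (h : c1 W b ⊆ c1 W a) : b ∈ W := by
  by_contra hb
  rw [c1_pos ha, c1_neg hb] at h
  exact notMem_empty () (h (mem_univ _))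

theorem cls_of {G : GT ι} {T : AT ι} {W : Finset ι} (hc : Col G (c1 W)) (ht : ColT T (c1 W)) :
    Cls G T W where
  bk a b h := ⟨fun ha => mem_of_sub ha (hc.blk a b h).ge, fun hb => mem_of_sub hb (hc.blk a b h).le⟩
  qv a ha b hb := mem_of_sub ha (hc.sub a b hb)
  pv a hU ha b hb := mem_of_sub ha (ht a hU b hb)

theorem vx_pos {W : Finset ι} {a : ι} (h : a ∈ W) (f : Unit → K) :
    (vx (c1 W) f a).1.2 = fun _ => default := by
  funext c
  simp [vx, rs, c1_pos h]

theorem vx_neg {W : Finset ι} {a : ι} (h : a ∉ W) (f : Unit → K) : (vx (c1 W) f a).1.2 = f := by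
  funext c
  simp [vx, rs, c1_neg h]

theorem vx_self {W : Finset ι} (v : CV (c1 W) K) : vx (c1 W) (fun _ => v.1.2 ()) v.1.1 = v :=
  Subtype.ext (Prod.ext rfl v.2)

theorem vx_eq {W : Finset ι} {a : ι} (h : a ∈ W) (f f' : Unit → K) :
    vx (c1 W) f a = vx (c1 W) f' a :=
  Subtype.ext (Prod.ext rfl ((vx_pos h f).trans (vx_pos h f').symm))

/-- the point of the tower of copies -/
def mk (W : Finset ι) (y : ι → ℤ) (x : K → ι → ℤ) : CV (c1 W) K → ℤ :=
  fun v => if v.1.1 ∈ W then y v.1.1 else x (v.1.2 ()) v.1.1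

theorem pt_mk {U W : Finset ι} {y : ι → ℤ} (hy : y ∈ Lat (U ∩ W)) {x : K → ι → ℤ}
    (hx : ∀ k, x k ∈ Lat (U \ W)) (f : Unit → K) : pt (c1 W) f (mk W y x) = y + x (f ()) := by
  funext a
  by_cases h : a ∈ W
  · have h1 : x (f ()) a = 0 := hx _ a fun h2 => (mem_sdiff.1 h2).2 h
    simp only [pt, mk, Pi.add_apply, h1, add_zero]
    exact if_pos h
  · have h1 : y a = 0 := hy a fun h2 => h (mem_inter.1 h2).2
    simp only [pt, mk, Pi.add_apply, h1, zero_add, vx_neg h]
    exact if_neg h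

/-- the lattice of the tower of copies -/
def dE (T : AT ι) (W : Finset ι) (K : Type) [Fintype K] [DecidableEq K] [Inhabited K] :
    Lat (T.U ∩ W) × (K → Lat (T.U \ W)) ≃ Lat (fu T (c1 W) K) where
  toFun u := ⟨mk W u.1.1 fun k => (u.2 k).1, fun v hv => by
    have h1 : v.1.1 ∉ T.U := fun h => hv (mem_filter.2 ⟨mem_univ _, h⟩)
    unfold mk
    split_ifs
    · exact u.1.2 _ fun h => h1 (mem_inter.1 h).1
    · exact (u.2 _).2 _ fun h => h1 (mem_sdiff.1 h).1⟩
  invFun z := (⟨fun a => if a ∈ W then z.1 (vx (c1 W) default a) else 0, fun a ha => by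
      by_cases h : a ∈ W
      · exact (if_pos h).trans (z.2 _ fun h2 => ha (mem_inter.2 ⟨(mem_filter.1 h2).2, h⟩))
      · exact if_neg h⟩,
    fun k => ⟨fun a => if a ∈ W then 0 else z.1 (vx (c1 W) (fun _ => k) a), fun a ha => by
      by_cases h : a ∈ W
      · exact if_pos h
      · exact (if_neg h).trans (z.2 _ fun h2 => ha (mem_sdiff.2 ⟨(mem_filter.1 h2).2, h⟩))⟩)
  left_inv u := by
    refine Prod.ext (Subtype.ext (funext fun a => ?_)) (funext fun k => Subtype.ext (funext fun a => ?_))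
    · by_cases h : a ∈ W
      · exact (if_pos h).trans (if_pos h)
      · exact (if_neg h).trans (u.1.2 a fun h2 => h (mem_inter.1 h2).2).symm
    · by_cases h : a ∈ W
      · exact (if_pos h).trans ((u.2 k).2 a fun h2 => (mem_sdiff.1 h2).2 h).symm
      · refine (if_neg h).trans ((if_neg h).trans ?_)
        rw [vx_neg h]
        rfl
  right_inv z := by
    refine Subtype.ext (funext fun v => ?_)
    by_cases h : v.1.1 ∈ W
    · refine (if_pos h).trans ((if_pos h).trans ?_)
      rw [vx_eq h default fun _ => v.1.2 (), vx_self]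
    · refine (if_neg h).trans ((if_neg h).trans ?_)
      rw [vx_self]

theorem sum_fu (T : AT ι) (W : Finset ι) (F : CV (c1 W) K → ℝ) :
    ∑ v ∈ fu T (c1 W) K, F v = ∑ a ∈ T.U ∩ W, F (vx (c1 W) default a) +
      ∑ k : K, ∑ a ∈ T.U \ W, F (vx (c1 W) (fun _ => k) a) := by
  rw [← Finset.sum_filter_add_sum_filter_not (fu T (c1 W) K) fun v => v.1.1 ∈ W,
    ← Finset.sum_product']
  congr 1
  · refine Finset.sum_bij' (fun v _ => v.1.1) (fun a _ => vx (c1 W) default a) ?_ ?_ ?_ ?_ ?_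
    · intro v hv
      exact mem_inter.2 ⟨(mem_filter.1 (mem_filter.1 hv).1).2, (mem_filter.1 hv).2⟩
    · intro a ha
      exact mem_filter.2 ⟨mem_filter.2 ⟨mem_univ _, (mem_inter.1 ha).1⟩, (mem_inter.1 ha).2⟩
    · intro v hv
      rw [vx_eq (mem_filter.1 hv).2 default fun _ => v.1.2 (), vx_self]
    · intro a _
      rfl
    · intro v hv
      rw [vx_eq (mem_filter.1 hv).2 default fun _ => v.1.2 (), vx_self]
  · refine Finset.sum_bij' (fun v _ => (v.1.2 (), v.1.1))
      (fun u _ => vx (c1 W) (fun _ => u.1) u.2) ?_ ?_ ?_ ?_ ?_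
    · intro v hv
      exact mem_product.2 ⟨mem_univ _,
        mem_sdiff.2 ⟨(mem_filter.1 (mem_filter.1 hv).1).2, (mem_filter.1 hv).2⟩⟩
    · intro u hu
      have := mem_sdiff.1 (mem_product.1 hu).2
      exact mem_filter.2 ⟨mem_filter.2 ⟨mem_univ _, this.1⟩, this.2⟩
    · intro v _
      exact vx_self v
    · intro u hu
      have := mem_sdiff.1 (mem_product.1 hu).2
      refine Prod.ext ?_ rfl
      simp only [vx_neg this.2]
    · intro v _
      rw [vx_self]

theorem ch_add {G : GT ι} {T : AT ι} {W : Finset ι} (hc : Cls G T W) {a : ι} (hU : a ∈ T.U)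
    (ha : a ∈ W) (y : ι → ℤ) {x : ι → ℤ} (hx : ∀ b ∈ W, x b = 0) :
    eval (cz (y + x)) (G.ch T a) = eval (cz y) (G.ch T a) := by
  have e : ∀ b ∈ W, cz (y + x) b = cz y b := fun b hb => by
    simp only [cz, Pi.add_apply, hx b hb, add_zero]
  simp only [GT.ch, GT.th, map_add, map_sum, map_mul, map_sub, eval_C, eval_X]
  rw [eval_congr_vars fun b hb => e b (hc.pv a hU ha hb)]
  congr 1
  refine Finset.sum_congr rfl fun b _ => ?_
  by_cases h : G.A a b = 0
  · rw [h, zero_mul, zero_mul]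
  · have hb := (hc.bk a b (Or.inl h)).1 ha
    rw [eval_congr_vars fun c hc2 => e c (hc.qv b hb hc2), e b hb]

theorem mn_empty (G : GT ι) (σ : ι → ℝ) : G.mn σ ∅ = 1 := by
  simp [GT.mn, GT.dv]

theorem prod_unit (F : Finset Unit → ℝ) : ∏ e, F e = F ∅ * F univ := by
  have h : (univ : Finset (Finset Unit)) = {∅, univ} := by decide
  rw [h, Finset.prod_pair (by decide)]

theorem mn_pow (G : GT ι) (σ : ι → ℝ) (V : Finset ι) {a b : ℕ} (h : V.Nonempty → a = b) :
    G.mn σ V ^ a = G.mn σ V ^ b := by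
  rcases V.eq_empty_or_nonempty with h1 | h1
  · rw [h1, mn_empty, one_pow, one_pow]
  · rw [h h1]

end DblP

open DblP in
theorem dbl (hA : CPA) (hM : CPM) (hF : FUB) : DBL := by
  intro s ι K _ _ _ _ _ G T P W hG hP hT hc ht
  have hcl := cls_of hc ht
  obtain ⟨hG', -, hev, -, h5⟩ := hA s ι Unit K G (c1 W) hG hc
  obtain ⟨hfu, -, h6⟩ := h5 T P hT ht
  obtain ⟨hch, hok⟩ := h6 (fu T (c1 W) K)
  have hT' := hok hfu
  refine ⟨hcl, ?_, fun φ H B hφ hH => ?_⟩
  · rw [(hM s ι Unit K G T P (c1 W) hG hc hP hT ht).1 _ hfu, prod_unit]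
    have e1 : T.U.filter (fun a => c1 W a = ∅) = T.U ∩ W := by
      ext a
      by_cases h : a ∈ W
      · simp [c1_pos h, h]
      · simp [c1_neg h, h]
    have e2 : T.U.filter (fun a => c1 W a = univ) = T.U \ W := by
      ext a
      by_cases h : a ∈ W
      · simp only [mem_filter, c1_pos h, mem_sdiff, h, not_true, and_false, iff_false, not_and]
        exact fun _ => by decide
      · simp [c1_neg h, h]
    rw [e1, e2]
    congr 1
    · refine (mn_pow G T.sg _ (b := 1) fun ⟨a, ha⟩ => ?_).trans (pow_one _)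
      rw [cn, card_eq_one]
      refine ⟨fun _ => default, ?_⟩
      ext f
      rw [mem_filter, mem_singleton]
      refine ⟨fun h => ?_, fun h => ⟨mem_univ _, ?_, a, (mem_inter.1 ha).1,
        c1_pos (mem_inter.1 ha).2, mem_filter.2 ⟨mem_univ _, (mem_inter.1 ha).1⟩⟩⟩
      · rw [← h.2.1]
        funext c
        simp [rs]
      · rw [h]
        funext c
        simp [rs]
    · refine mn_pow G T.sg _ fun ⟨a, ha⟩ => ?_
      rw [cn, filter_true_of_mem, card_univ, Fintype.card_fun, Fintype.card_unit, pow_one]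
      intro f _
      refine ⟨?_, a, (mem_sdiff.1 ha).1, c1_neg (mem_sdiff.1 ha).2,
        mem_filter.2 ⟨mem_univ _, (mem_sdiff.1 ha).1⟩⟩
      funext c
      simp [rs]
  · obtain ⟨-, -, hsf, -, -⟩ := hF s ι G T P W hG hP hT hcl
    have hB : 0 ≤ B := (norm_nonneg _).trans (hφ 0)
    have hnu : ∀ (y : Lat (T.U ∩ W)) (x : K → Lat (T.U \ W)),
        (cp G (c1 W) K).nu (cpT T (c1 W) (fu T (c1 W) K)) (mk W y.1 fun k => (x k).1) =
        G.nu (T.rs (T.U ∩ W)) y.1 * ∏ k, G.nu (T.rs (T.U \ W)) (y.1 + (x k).1) := by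
      intro y x
      simp only [GT.nu]
      rw [← Real.exp_sum, ← Real.exp_add, ← Finset.mul_sum, ← mul_add]
      congr 2
      refine (sum_fu T W _).trans ?_
      congr 1
      · refine Finset.sum_congr rfl fun a ha => ?_
        rw [hch _ a (mem_inter.1 ha).1, hev, pt_mk y.2 fun k => (x k).2,
          ch_add hcl (mem_inter.1 ha).1 (mem_inter.1 ha).2 _
            fun b hb => (x _).2 b fun h => (mem_sdiff.1 h).2 hb]
        rfl
      · refine Finset.sum_congr rfl fun k _ => Finset.sum_congr rfl fun a ha => ?_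
        rw [hch _ a (mem_sdiff.1 ha).1, hev, pt_mk y.2 fun k => (x k).2]
        rfl
    have hs : Summable fun z : Lat (fu T (c1 W) K) =>
        (cp G (c1 W) K).nu (cpT T (c1 W) (fu T (c1 W) K)) z.1 •
          (φ (res W (pt (c1 W) default z.1)) * ∏ k, H k (pt (c1 W) (fun _ => k) z.1)) := by
      have h1 : Summable fun z : Lat (fu T (c1 W) K) =>
          (cp G (c1 W) K).nu (cpT T (c1 W) (fu T (c1 W) K)) z.1 := (summ_le hG' hP hT').1
      refine Summable.of_norm_bounded (h1.mul_right (B * B ^ Fintype.card K)) fun z => ?_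
      rw [norm_smul, Real.norm_eq_abs, abs_of_pos (nu_pos _ _), norm_mul, norm_prod]
      refine mul_le_mul_of_nonneg_left (mul_le_mul (hφ _) ?_
        (Finset.prod_nonneg fun _ _ => norm_nonneg _) hB) (nu_pos _ _).le
      refine (Finset.prod_le_prod (fun _ _ => norm_nonneg _) fun k _ => hH k _).trans_eq ?_
      rw [Finset.prod_const, card_univ]
    have e : ∀ u : Lat (T.U ∩ W) × (K → Lat (T.U \ W)),
        (cp G (c1 W) K).nu (cpT T (c1 W) (fu T (c1 W) K)) (dE T W K u).1 •
          (φ (res W (pt (c1 W) default (dE T W K u).1)) *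
            ∏ k, H k (pt (c1 W) (fun _ => k) (dE T W K u).1)) =
        G.nu (T.rs (T.U ∩ W)) u.1.1 • φ u.1.1 *
          ∏ k, G.nu (T.rs (T.U \ W)) (u.1.1 + (u.2 k).1) • H k (u.1.1 + (u.2 k).1) := by
      intro u
      have h0 : (dE T W K u).1 = mk W u.1.1 fun k => (u.2 k).1 := rfl
      have h1 : res W (u.1.1 + (u.2 ((default : Unit → K) ())).1) = u.1.1 := by
        funext a
        by_cases h : a ∈ W
        · simp only [res, if_pos h, Pi.add_apply,
            (u.2 _).2 a fun h2 => (mem_sdiff.1 h2).2 h, add_zero]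
        · simp only [res, if_neg h]
          exact (u.1.2 a fun h2 => h (mem_inter.1 h2).2).symm
      rw [h0, hnu]
      simp only [pt_mk u.1.2 fun k => (u.2 k).2, h1, Complex.real_smul, Finset.prod_mul_distrib]
      push_cast
      ring
    have hs2 : Summable fun u : Lat (T.U ∩ W) × (K → Lat (T.U \ W)) =>
        G.nu (T.rs (T.U ∩ W)) u.1.1 • φ u.1.1 *
          ∏ k, G.nu (T.rs (T.U \ W)) (u.1.1 + (u.2 k).1) • H k (u.1.1 + (u.2 k).1) :=
      ((dE T W K).summable_iff.2 hs).congr e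
    have key : Ex (cp G (c1 W) K) (cpT T (c1 W) (fu T (c1 W) K))
        (fun z => φ (res W (pt (c1 W) default z)) * ∏ k, H k (pt (c1 W) (fun _ => k) z)) =
        ∑' u : Lat (T.U ∩ W) × (K → Lat (T.U \ W)), G.nu (T.rs (T.U ∩ W)) u.1.1 • φ u.1.1 *
          ∏ k, G.nu (T.rs (T.U \ W)) (u.1.1 + (u.2 k).1) • H k (u.1.1 + (u.2 k).1) :=
      ((dE T W K).tsum_eq _).symm.trans (tsum_congr e)
    rw [key, hs2.tsum_prod]
    refine tsum_congr fun y => ?_
    simp only
    rw [tsum_mul_left, tsum_pi (fun k (x : Lat (T.U \ W)) =>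
      G.nu (T.rs (T.U \ W)) (y.1 + x.1) • H k (y.1 + x.1)) fun k => ?_, smul_mul_assoc]
    · rfl
    · refine Summable.of_nonneg_of_le (fun _ => norm_nonneg _) (fun x => ?_) ((hsf y.1).mul_right B)
      rw [norm_smul, Real.norm_eq_abs, abs_of_pos (nu_pos _ _)]
      exact mul_le_mul_of_nonneg_left (hH _ _) (nu_pos _ _).le

end

end Vale.Agent.P057T.Cp
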