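import Vale.Agent.P057T.Cfg.Cp
import Vale.Agent.P057T.Eq.Mono
import Vale.Agent.P057T.Eq.Summ

/-!
Row FIBR: marginals of a regular tower.
-/

open MvPolynomial Finset
open scoped Real

namespace Vale.Agent.P057T.Cp

open Vale.Agent.P057T.Eq

noncomputable section

set_option linter.unusedSectionVars false
set_option linter.unusedVariables false

namespace FibrP

variable {ι : Type} [Fintype ι] [DecidableEq ι]

theorem nu_pos (G : GT ι) (T : AT ι) (z : ι → ℤ) : 0 < G.nu T z := Real.exp_pos _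

theorem ex_real (G : GT ι) (T : AT ι) (f : (ι → ℤ) → ℝ) :
    Ex G T (fun z => (f z : ℂ)) = ((Ex G T f : ℝ) : ℂ) := by
  unfold Ex
  rw [Complex.ofReal_tsum]
  refine tsum_congr fun z => ?_
  rw [Complex.real_smul, smul_eq_mul, Complex.ofReal_mul]

theorem fs_real (G : GT ι) (T : AT ι) (W : Finset ι) (y : ι → ℤ) :
    Fs G T W (fun _ => (1 : ℂ)) y = ((Fs G T W (fun _ => (1 : ℝ)) y : ℝ) : ℂ) := by
  unfold Fs
  rw [Complex.ofReal_tsum]
  refine tsum_congr fun z => ?_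
  rw [Complex.real_smul, smul_eq_mul, Complex.ofReal_mul, Complex.ofReal_one]

theorem fs_nonneg (G : GT ι) (T : AT ι) (W : Finset ι) (y : ι → ℤ) :
    0 ≤ Fs G T W (fun _ => (1 : ℝ)) y :=
  tsum_nonneg fun x => by
    rw [smul_eq_mul, mul_one]
    exact (nu_pos _ _ _).le

theorem card_CV (W : Finset ι) : Fintype.card (CV (c1 W) Bool) ≤ 2 * Fintype.card ι := by
  refine (Fintype.card_subtype_le _).trans (le_of_eq ?_)
  simp [mul_comm]

/-- the second moment argument -/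
theorem mom {α : Type} {ν Θ : α → ℝ} {B m M δ ε : ℝ} (hν : Summable ν) (h0 : ∀ y, 0 ≤ ν y)
    (hΘ : ∀ y, 0 ≤ Θ y ∧ Θ y ≤ B) (hm : 0 < m) (hM : 0 < M) (hε : 0 < ε) (hδ : δ ≤ 1)
    (a0 : |∑' y, ν y - M| ≤ δ * M) (a1 : |∑' y, ν y * Θ y - M * m| ≤ δ * (M * m))
    (a2 : |∑' y, ν y * (Θ y * Θ y) - M * m ^ 2| ≤ δ * (M * m ^ 2)) :
    Summable (fun y => ν y * |Θ y - m|) ∧
      ∑' y, ν y * |Θ y - m| ≤ (ε + 2 * δ / ε) * (M * m) := by
  have s1 : Summable fun y => ν y * Θ y :=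
    Summable.of_nonneg_of_le (fun y => mul_nonneg (h0 y) (hΘ y).1)
      (fun y => mul_le_mul_of_nonneg_left (hΘ y).2 (h0 y)) (hν.mul_right B)
  have s2 : Summable fun y => ν y * (Θ y * Θ y) :=
    Summable.of_nonneg_of_le (fun y => mul_nonneg (h0 y) (mul_self_nonneg _))
      (fun y => mul_le_mul_of_nonneg_left (mul_self_le_mul_self (hΘ y).1 (hΘ y).2) (h0 y))
      (hν.mul_right (B * B))
  have ht : 0 < ε * m := mul_pos hε hm
  have hs := ((hν.hasSum.mul_left ((ε * m) / 2 + m ^ 2 / (2 * (ε * m)))).add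
    (s1.hasSum.mul_left (-(m / (ε * m))))).add (s2.hasSum.mul_left (1 / (2 * (ε * m))))
  have hle : ∀ y, ν y * |Θ y - m| ≤ ((ε * m) / 2 + m ^ 2 / (2 * (ε * m))) * ν y +
      -(m / (ε * m)) * (ν y * Θ y) + 1 / (2 * (ε * m)) * (ν y * (Θ y * Θ y)) := by
    intro y
    have e : ((ε * m) / 2 + m ^ 2 / (2 * (ε * m))) * ν y +
        -(m / (ε * m)) * (ν y * Θ y) + 1 / (2 * (ε * m)) * (ν y * (Θ y * Θ y)) =
        ν y * (((ε * m) ^ 2 + (Θ y - m) ^ 2) / (2 * (ε * m))) := by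
      field_simp
      ring
    rw [e]
    refine mul_le_mul_of_nonneg_left ?_ (h0 y)
    rw [le_div_iff₀ (by linarith), ← sq_abs (Θ y - m)]
    nlinarith [sq_nonneg (|Θ y - m| - ε * m)]
  have s3 : Summable fun y => ν y * |Θ y - m| :=
    Summable.of_nonneg_of_le (fun y => mul_nonneg (h0 y) (abs_nonneg _)) hle hs.summable
  refine ⟨s3, (hasSum_le hle s3.hasSum hs).trans ?_⟩
  obtain ⟨-, b0⟩ := abs_le.1 a0
  obtain ⟨b1, -⟩ := abs_le.1 a1
  obtain ⟨-, b2⟩ := abs_le.1 a2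
  set S0 := ∑' y, ν y
  set S1 := ∑' y, ν y * Θ y
  set S2 := ∑' y, ν y * (Θ y * Θ y)
  have e : ((ε * m) / 2 + m ^ 2 / (2 * (ε * m))) * S0 + -(m / (ε * m)) * S1 +
      1 / (2 * (ε * m)) * S2 = (ε * m) / 2 * S0 + (m ^ 2 * S0 - 2 * m * S1 + S2) / (2 * (ε * m)) := by
    field_simp
    ring
  rw [e]
  have c1 : (ε * m) / 2 * S0 ≤ ε * (M * m) := by
    have : S0 ≤ 2 * M := by nlinarith
    nlinarith
  have c2 : (m ^ 2 * S0 - 2 * m * S1 + S2) / (2 * (ε * m)) ≤ 2 * δ / ε * (M * m) := by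
    rw [div_le_iff₀ (by linarith)]
    have e2 : 2 * δ / ε * (M * m) * (2 * (ε * m)) = 4 * δ * (M * m ^ 2) := by
      field_simp
      ring
    rw [e2]
    have d0 : m ^ 2 * S0 ≤ m ^ 2 * (M + δ * M) :=
      mul_le_mul_of_nonneg_left (by linarith) (sq_nonneg m)
    have d1 : 2 * m * (M * m - δ * (M * m)) ≤ 2 * m * S1 :=
      mul_le_mul_of_nonneg_left (by linarith) (by linarith)
    nlinarith
  linarith

end FibrP

open FibrP in
theorem fibr (hMo : MONO) (hA : CPA) (hR : CPR) (hM : MS) (hF : FUB) (hD : DBL) : FIBR := by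
  intro s
  obtain ⟨c, hc⟩ := hM s
  refine ⟨2 * c + 3, ?_⟩
  intro ι _ _ G T WW P Y W hSz hT hr hcol hcT
  have hP := hSz.P2
  have hY := hSz.Y1
  have hG := hr.ok
  have hP0 : 0 < P := by linarith
  obtain ⟨d1, d2, d3⟩ := hD s ι Bool G T P W hG hP0 hT hcol hcT
  obtain ⟨f1, f2, f3, ⟨B, f4⟩, f5⟩ := hF s ι G T P W hG hP0 hT d1
  obtain ⟨-, -, -, -, a5⟩ := hA s ι Unit Bool G (c1 W) hG hcol
  obtain ⟨a6, -, a7⟩ := a5 T P hT hcT
  have a8 := (a7 _).2 a6
  have k1 : (2 * P) ^ c ≤ P ^ (2 * c) := two_pw_le hP c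
  have k2 : (8 : ℝ) ≤ P ^ 3 := by
    have := pow_le_pow_left₀ (by norm_num : (0 : ℝ) ≤ 2) hP 3
    linarith
  have k3 : 1 ≤ (2 * P) ^ c := one_le_pow₀ (by linarith)
  have k4 : (2 * P) ^ c ≤ P ^ (2 * c + 3) := k1.trans (pw_le hP (by omega))
  have k5 : (2 * P) ^ c * (2 * Y + 3) ≤ P ^ (2 * c + 3) * Y := by
    rw [pow_add, mul_assoc]
    exact mul_le_mul k1 (by nlinarith) (by linarith) (pw_pos hP _).le
  have hY1 : 1 ≤ 2 * Y + 3 := by linarith
  have r1 := (hMo s ι G WW _ Y _ _ hr k3 hY1 k4 k5).1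
  have r2 := hR s ι Unit Bool G (c1 W) WW _ _ (by linarith) (by linarith) hcol r1
  have z1 : Sz ι (2 * P) (2 * Y + 3) := hSz.mono (by linarith) hY1
  have z2 : Sz (CV (c1 W) Bool) (2 * P) (2 * Y + 3) := by
    refine ⟨?_, by linarith, hY1⟩
    have h1 : (Fintype.card (CV (c1 W) Bool) : ℝ) ≤ 2 * Fintype.card ι := by
      exact_mod_cast card_CV W
    linarith [hSz.cd]
  obtain ⟨m0, m1⟩ := hc ι G _ WW _ _ z1 (f1.mono hP0 (by linarith)) r1
  obtain ⟨m2, m3⟩ := hc ι G T WW _ _ z1 (hT.mono hP0 (by linarith)) r1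
  obtain ⟨-, m5⟩ := hc _ _ _ WW _ _ z2 (a8.mono hP0 (by linarith)) r2
  set T1 := T.rs (T.U ∩ W) with hT1
  set m := G.mn T.sg (T.U \ W) with hm
  have hm0 : 0 < m := by
    rw [f2] at m2
    exact (mul_pos_iff_of_pos_left m0).1 m2
  have e1 := f5 ℝ (fun _ => (1 : ℝ)) 1 (fun _ => by simp)
  have e2 := d3 (fun _ => 1) (fun _ _ => 1) 1 (fun _ => by simp) (fun _ _ => by simp)
  simp only [Finset.prod_const_one, mul_one, one_mul, Fintype.prod_bool, fs_real] at e2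
  have e3 : Ex (cp G (c1 W) Bool) (cpT T (c1 W) (fu T (c1 W) Bool)) (fun _ => (1 : ℝ)) =
      Ex G T1 (fun y => Fs G T W (fun _ => (1 : ℝ)) y * Fs G T W (fun _ => (1 : ℝ)) y) := by
    apply Complex.ofReal_injective
    rw [← ex_real, ← ex_real]
    simpa only [Complex.ofReal_one, Complex.ofReal_mul] using e2
  rw [e1, f2] at m3
  rw [e3, d2, Fintype.card_bool] at m5
  have hs : Summable fun z : Lat T1.U => G.nu T1 z.1 := summ s ι G T1 P hG hP0 f1
  obtain ⟨g1, g2⟩ := mom (ν := fun z : Lat T1.U => G.nu T1 z.1)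
    (Θ := fun z => Fs G T W (fun _ => (1 : ℝ)) z.1) (B := B) (m := m) (M := Mn G T1)
    (δ := Real.exp (-(2 * Y + 3))) (ε := Real.exp (-Y) / 2) hs (fun z => (nu_pos _ _ _).le)
    (fun z => ⟨fs_nonneg _ _ _ _, f4 _⟩) hm0 m0 (by positivity)
    (Real.exp_le_one_iff.2 (by linarith)) (by simpa only [Ex, smul_eq_mul, mul_one] using m1) m3 m5
  have g3 : Real.exp (-Y) / 2 + 2 * Real.exp (-(2 * Y + 3)) / (Real.exp (-Y) / 2) ≤
      Real.exp (-Y) := by
    have h1 : Real.exp (-(2 * Y + 3)) = Real.exp (-Y) * Real.exp (-Y) * Real.exp (-3) := by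
      rw [← Real.exp_add, ← Real.exp_add]
      congr 1
      ring
    have h2 : Real.exp (-3) ≤ 1 / 8 := by
      rw [Real.exp_neg, ← one_div]
      refine one_div_le_one_div_of_le (by norm_num) ?_
      have h3 : Real.exp 3 = Real.exp 1 ^ 3 := by rw [← Real.exp_nat_mul]; norm_num
      have h4 : (2 : ℝ) ≤ Real.exp 1 := by linarith [Real.add_one_le_exp (1 : ℝ)]
      have := pow_le_pow_left₀ (by norm_num : (0 : ℝ) ≤ 2) h4 3
      linarith
    have h5 := Real.exp_pos (-Y)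
    have h6 : 2 * (Real.exp (-Y) * Real.exp (-Y) * Real.exp (-3)) / (Real.exp (-Y) / 2) =
        4 * Real.exp (-Y) * Real.exp (-3) := by
      field_simp
      ring
    rw [h1, h6]
    nlinarith
  have g4 : ∑' z : Lat T1.U, G.nu T1 z.1 * |Fs G T W (fun _ => (1 : ℝ)) z.1 - m| ≤
      Real.exp (-Y) * Mn G T := by
    rw [f2]
    exact g2.trans (mul_le_mul_of_nonneg_right g3 (mul_pos m0 hm0).le)
  refine ⟨g4, ?_⟩
  intro E _ _ _ h hh
  rw [f5 E (fun z => h (res W z)) 1 (fun z => hh _)]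
  have e4 : ∀ y : Lat T1.U, Fs G T W (fun z => h (res W z)) y.1 =
      Fs G T W (fun _ => (1 : ℝ)) y.1 • h y.1 := by
    intro y
    unfold Fs
    simp only [smul_eq_mul, mul_one]
    rw [← (f3 y.1).tsum_smul_const]
    refine tsum_congr fun x => ?_
    have : res W (y.1 + x.1) = y.1 := by
      funext a
      unfold res
      split_ifs with ha
      · rw [Pi.add_apply, x.2 a (fun h => (Finset.mem_sdiff.1 h).2 ha), add_zero]
      · exact (y.2 a fun h => ha (Finset.mem_inter.1 h).2).symm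
    rw [this]
  have s1 : Summable fun y : Lat T1.U => G.nu T1 y.1 • h y.1 :=
    Summable.of_norm_bounded hs fun y => by
      rw [norm_smul, Real.norm_eq_abs, abs_of_pos (nu_pos _ _ _)]
      exact mul_le_of_le_one_right (nu_pos _ _ _).le (hh _)
  have n2 : ∀ y : Lat T1.U, ‖G.nu T1 y.1 • Fs G T W (fun z => h (res W z)) y.1 -
      m • G.nu T1 y.1 • h y.1‖ ≤ G.nu T1 y.1 * |Fs G T W (fun _ => (1 : ℝ)) y.1 - m| := by
    intro y
    rw [e4, smul_comm m, ← smul_sub, ← sub_smul, norm_smul, norm_smul, Real.norm_eq_abs,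
      Real.norm_eq_abs, abs_of_pos (nu_pos _ _ _)]
    exact mul_le_mul_of_nonneg_left (mul_le_of_le_one_right (abs_nonneg _) (hh _))
      (nu_pos _ _ _).le
  have s2 := Summable.of_norm_bounded g1 n2
  have s3 : Summable fun y : Lat T1.U => G.nu T1 y.1 • Fs G T W (fun z => h (res W z)) y.1 :=
    (s2.add (s1.const_smul m)).congr fun y => sub_add_cancel _ _
  unfold Ex
  rw [← s1.tsum_const_smul m, ← s3.tsum_sub (s1.const_smul m)]
  exact (tsum_of_norm_bounded g1.hasSum n2).trans g4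

end

end Vale.Agent.P057T.Cp
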