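import Vale.Agent.P057T.Cfg.Cp
import Vale.Agent.P057T.Eq.Summ

/-! Fubini along a closed set of variables. -/

set_option linter.all false

open MvPolynomial Finset
open scoped Real
open Vale.Agent.P267.H775 Vale.Agent.P057T.Poi

namespace Vale.Agent.P057T.Cp

open Vale.Agent.P057T.Eq Vale.Agent.P057T.Eq.Br

theorem fub (hD : DET) (hS : SUMM) : FUB := by
  intro s ι _ _ G T P W hG hP hT hW
  have hB : G.Bk (T.U \ W) := bk_sdiff hT.bk hW.bk
  have hsub : T.U \ W ⊆ T.U := sdiff_subset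
  have e0 : T.U \ (T.U \ W) = T.U ∩ W := Finset.sdiff_sdiff_self_left _ _
  have hd : ∀ a ∈ T.U \ (T.U \ W), Disjoint (G.q a).vars (T.U \ W) ∧
      Disjoint (T.p a).vars (T.U \ W) := fun a ha => by
    rw [e0] at ha
    obtain ⟨h1, h2⟩ := mem_inter.1 ha
    exact ⟨disjoint_sdiff.mono_left (hW.qv a h2), disjoint_sdiff.mono_left (hW.pv a h1 h2)⟩
  have σ0 := sg_pos hP hT
  have he : ∀ (y : ι → ℤ) (x : ↥(T.U \ W) → ℤ),
      G.nu (T.rs (T.U \ W)) (y + (latE (T.U \ W) x).1) = gq (mM G T.sg (T.U \ W))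
      (toR x - fun b : ↥(T.U \ W) => eval (cz (y + ex0 _ x)) (G.cq T b) - y b) := fun y x => by
    rw [← gq_fib, nu_eq (T := T.rs (T.U \ W)) hG hB, latE_coe]
    rfl
  have h3 : ∀ y, Summable fun x : Lat (T.U \ W) => G.nu (T.rs (T.U \ W)) (y + x.1) := fun y =>
    (latE (T.U \ W)).summable_iff.1 ((fib_sum hG hT hsub hB σ0 y).1.congr fun x => (he y x).symm)
  rw [← e0]
  refine ⟨aok_rs hT hB hd, ?_, h3, ⟨th (mM G T.sg (T.U \ W)) 0, fun y => ?_⟩,
    fun E _ _ _ h B hh => ?_⟩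
  · show G.dv T.U * ∏ a ∈ T.U, (T.sg a)⁻¹ =
      G.dv (T.U \ (T.U \ W)) * (∏ a ∈ T.U \ (T.U \ W), (T.sg a)⁻¹) *
        (G.dv (T.U \ W) * ∏ a ∈ T.U \ W, (T.sg a)⁻¹)
    rw [(hD s ι G hG).2.2.1 T.U (T.U \ W) hT.bk hB hsub, ← prod_sdiff hsub]
    ring
  · unfold Fs
    rw [← (latE (T.U \ W)).tsum_eq]
    simp only [he, smul_eq_mul, mul_one]
    exact (fib_sum hG hT hsub hB σ0 y).2
  · have h1 : Summable fun z : Lat T.U => G.nu T z.1 • h z.1 :=
      Summable.of_norm_bounded ((hS s ι G T P hG hP hT).mul_right B) fun z => by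
        rw [norm_smul, Real.norm_of_nonneg (nu_pos T z.1).le]
        exact mul_le_mul_of_nonneg_left (hh _) (nu_pos T z.1).le
    unfold Ex Fs
    rw [← (splE hsub).tsum_eq]
    refine ((splE hsub).summable_iff.2 h1).tsum_prod.trans (tsum_congr fun y => ?_)
    rw [← tsum_const_smul'']
    refine tsum_congr fun x => ?_
    show G.nu T (splE hsub (y, x)).1 • h (splE hsub (y, x)).1 = _
    rw [splE_coe, nu_split hG hT.bk hsub hB hd y.1 x.2, mul_smul,
      nu_eq (T := T.rs (T.U \ W)) hG hB]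
    rfl

end Vale.Agent.P057T.Cp
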