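import Vale.Agent.P057T.Cfg.Cp
import Vale.Agent.P057T.Eq.Mono

/-! Monotonicity of regularity and the mass of a regular tower. -/

set_option linter.all false

open MvPolynomial Finset

namespace Vale.Agent.P057T.Cp

open Vale.Agent.P057T.Eq

theorem mono : MONO := by
  intro s ι _ _ G WW c Y c' Y' h hc hY hcc hcY
  have key : ∀ g, c' * (Y' + WW g) ≤ c * (Y + WW g) := by
    intro g
    have := mul_le_mul_of_nonneg_right hcc (h.wd.nn g)
    linarith [mul_add c' Y' (WW g), mul_add c Y (WW g)]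
  have one : ∀ g, 1 ≤ c' * (Y' + WW g) := fun g =>
    one_le_mul_of_one_le_of_one_le hc (by linarith [h.wd.nn g])
  have sm : ∀ g < s, G.Small g (Real.exp (-(c' * (Y' + WW (g + 1)))) * (c' * (Y' + WW g))⁻¹) := by
    intro g hg
    refine (h.small g hg).mono ?_
    refine mul_le_mul (Real.exp_le_exp.2 (by linarith [key (g + 1)])) ?_ ?_ (Real.exp_pos _).le
    · exact inv_anti₀ (by linarith [one g]) (key g)
    · exact inv_nonneg.2 (by linarith [one g, key g])
  have bg : ∀ g < s, G.Big g (Real.exp (c' * (Y' + WW g))) := fun g hg =>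
    (h.big g hg).mono (Real.exp_le_exp.2 (key g))
  refine ⟨⟨h.ok, h.wd, bg, sm⟩, fun g hg => ⟨bg g hg, (sm g hg).mono (le_min ?_ ?_)⟩⟩
  · exact mul_le_of_le_one_right (Real.exp_pos _).le (inv_le_one_of_one_le₀ (one g))
  · exact mul_le_of_le_one_left (inv_nonneg.2 (by linarith [one g]))
      (Real.exp_le_one_iff.2 (by linarith [one (g + 1)]))

theorem ms (hD : DET) (hM : ∀ s, MASS s s s) : MS := by
  intro s
  obtain ⟨c, h⟩ := hM s
  refine ⟨c, ?_⟩
  intro ι _ _ G T WW P Y hS hA hR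
  have hP : (0 : ℝ) < P := by linarith [hS.P2]
  refine ⟨?_, ?_⟩
  · refine mul_pos ((hD s ι G hR.ok).1 _ hA.bk) (prod_pos fun a _ => inv_pos.2 ?_)
    exact lt_of_lt_of_le (inv_pos.2 hP) (hA.s1 a)
  · have e : Ex G T (fun _ => (1 : ℝ)) = G.ms T := by
      simp only [Ex, GT.ms, smul_eq_mul, mul_one]
    rw [e]
    refine h ι G T WW P Y s hR.ok hR.wd hS hA le_rfl
      (mono s ι G WW _ Y _ Y hR (one_le_pw hS.P2 c) hS.Y1 le_rfl le_rfl).2
      (fun a _ _ => hR.ok.ws a) ?_ (fun a _ => hR.ok.gs a)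
    unfold GT.cnt
    refine (card_le_card (t := range s) fun g hg => ?_).trans (card_range s).le
    obtain ⟨a, -, rfl⟩ := mem_image.1 hg
    exact mem_range.2 (hR.ok.gs a)

end Vale.Agent.P057T.Cp
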