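import Vale.Agent.P057T.Cfg.Cp
import Vale.Agent.P057T.Chart

/-! Pull back of relations along integer substitutions. -/

set_option linter.unusedSectionVars false

open MvPolynomial Finset

namespace Vale.Agent.P057T.Cp

open Vale.Agent.P057T.Eq

namespace Pl

variable {ι κ : Type} [Fintype ι] [DecidableEq ι] [Fintype κ] [DecidableEq κ]

theorem lin_isZ (k : ι → ℤ) : IsZ (lin (cz k)) :=
  L1.isInt_sum fun a _ => (L1.isInt_C (k a)).mul (L1.isInt_X a)

theorem lin_vars {k : ι → ℝ} : ∀ j ∈ (lin k).vars, k j ≠ 0 := by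
  refine Chart.vars_sum' (P := fun j => k j ≠ 0) fun a _ => ?_
  by_cases h : k a = 0
  · simp [h]
  · exact Chart.vars_mul' (P := fun j => k j ≠ 0) (Chart.vars_C' _)
      (Chart.vars_X' (P := fun j => k j ≠ 0) h)

theorem lin_hm {w : ι → ℕ} {e : ℕ} {k : ι → ℝ} (hk : ∀ a, k a ≠ 0 → w a = e) :
    IsWeightedHomogeneous w (lin k) e := by
  refine IsWeightedHomogeneous.sum _ _ _ fun a _ => ?_
  by_cases h : k a = 0
  · rw [h, C_0, zero_mul]; exact isWeightedHomogeneous_zero _ _ _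
  · rw [← hk a h]; exact (isWeightedHomogeneous_X ℝ w a).C_mul _

theorem nrm_lin (k : ι → ℝ) : L1.nrm (lin k) ≤ ∑ a, |k a| := by
  refine (L1.nrm_sum_le _ _).trans (le_of_eq (sum_congr rfl fun a _ => ?_))
  rw [L1.nrm_C_mul, L1.nrm_X, mul_one]

theorem aeval_lin {τ : Type*} (f : ι → MvPolynomial τ ℝ) (k : ι → ℝ) :
    aeval f (lin k) = ∑ a, C (k a) * f a := by
  simp [lin]

theorem aeval_aeval {σ τ υ : Type*} (f : σ → MvPolynomial τ ℝ) (g : τ → MvPolynomial υ ℝ)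
    (p : MvPolynomial σ ℝ) : aeval g (aeval f p) = aeval (fun i => aeval g (f i)) p := by
  have : (aeval g : MvPolynomial τ ℝ →ₐ[ℝ] _).comp (aeval f) = aeval (fun i => aeval g (f i)) := by
    ext i; simp
  exact DFunLike.congr_fun this p

theorem sb_lin (M : Matrix κ ι ℤ) (k : κ → ℤ) :
    aeval (sb M) (lin (cz k)) = lin (cz fun a => ∑ y, k y * M y a) := by
  rw [aeval_lin]
  simp only [sb, lin, cz, mul_sum]
  rw [sum_comm]
  refine sum_congr rfl fun a _ => ?_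
  push_cast
  rw [map_sum, sum_mul]
  refine sum_congr rfl fun y _ => ?_
  rw [C_mul, mul_assoc]

theorem cz_ne {k : ι → ℤ} {a : ι} (h : cz k a ≠ 0) : k a ≠ 0 := by
  intro h0; apply h; simp [cz, h0]

theorem part (hB : BD) {s : ℕ} {G : GT ι} {G' : GT κ} {ρ : ℝ} (hG' : G'.Ok s) (hρ : 1 ≤ ρ)
    {M : Matrix κ ι ℤ} {N : Matrix κ ι ℝ} (h : Pb G G' M N ρ) (F : MvPolynomial κ ℝ) :
    (IsZ F → IsZ (aeval (sb M) F)) ∧ (∀ g, G'.Lo g F → G.Lo g (aeval (sb M) F)) ∧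
      (∀ e, G'.Hm e F → G.Hm e (aeval (sb M) F)) ∧
      ∀ e H, e ≤ s → G'.Hm e F → G'.Bd F H → G.Bd (aeval (sb M) F) (ρ ^ s * H) := by
  refine ⟨fun hF => L1.IsInt.aeval hF fun x => lin_isZ (M x), fun g hF => ?_, fun e hF => ?_, ?_⟩
  · refine Chart.vars_aeval (P := fun j => G.g j < g) fun x hx j hj => ?_
    rw [← (h.gw x j (cz_ne (lin_vars j hj))).1]
    exact hF x hx
  · exact Chart.hom_aeval hF fun x => lin_hm fun a ha => (h.gw x a (cz_ne ha)).2.symm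
  · rintro e H he hF ⟨b, rfl, hb⟩
    have h1 : G'.Hm e b := ((hB s κ G' hG').2.1 e b).2 hF
    have h2 : b.totalDegree ≤ s := (Chart.totalDegree_le_of_hom hG'.w1 h1).trans he
    refine ⟨aeval (fun x => lin (N x)) b, ?_, ?_⟩
    · rw [aeval_aeval, aeval_aeval]
      congr 2
      funext x
      rw [aeval_lin, h.th x]
    · refine (L1.nrm_aeval_le hρ (fun x => (nrm_lin _).trans (h.nb x)) h2).trans ?_
      rw [mul_comm]
      exact mul_le_mul_of_nonneg_left hb (pow_nonneg (by linarith) s)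

end Pl

theorem pull (hB : BD) : PULL := by
  intro s ι κ _ _ _ _ G G' ρ hG hG' hρ
  refine ⟨fun M N h F => Pl.part hB hG' hρ h F, ?_⟩
  intro g H hp hbig e k I hk hI hlo hhm hbd x hx
  by_contra hex
  obtain ⟨M, N, h, a, ha, hne⟩ := hp k x hx hex
  have he : e ≤ s := (hk x hx).2 ▸ hG'.ws x
  obtain ⟨p1, p2, p3, -⟩ := Pl.part hB hG' hρ h I
  have h1 : G'.Hm e (lin (cz k) + I) :=
    IsWeightedHomogeneous.add (Pl.lin_hm fun y hy => (hk y (Pl.cz_ne hy)).2) hhm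
  have h2 := (Pl.part hB hG' hρ h (lin (cz k) + I)).2.2.2 e H he h1 hbd
  rw [map_add, Pl.sb_lin] at h2
  refine ha (hbig e _ _ ?_ (p1 hI) (p2 g hlo) (p3 e hhm) h2 a hne)
  intro b hb
  obtain ⟨y, -, hy⟩ := exists_ne_zero_of_sum_ne_zero hb
  obtain ⟨h3, h4⟩ := h.gw y b (right_ne_zero_of_mul hy)
  obtain ⟨h5, h6⟩ := hk y (left_ne_zero_of_mul hy)
  exact ⟨h3 ▸ h5, h4 ▸ h6⟩

end Vale.Agent.P057T.Cp
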