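import Vale.Agent.P057T.Cfg.Cp

/-! Change of chart, algebra. -/

set_option linter.all false

open MvPolynomial Finset

namespace Vale.Agent.P057T.Cp

open Vale.Agent.P057T.Eq

noncomputable section

namespace Rca

variable {ι : Type} [Fintype ι] [DecidableEq ι]

theorem mul_ne {M M' : Matrix ι ι ℝ} {a b : ι} (h : (M * M') a b ≠ 0) :
    ∃ c, M a c ≠ 0 ∧ M' c b ≠ 0 := by
  rw [Matrix.mul_apply] at h
  obtain ⟨c, -, hc⟩ := Finset.exists_ne_zero_of_sum_ne_zero h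
  exact ⟨c, left_ne_zero_of_mul hc, right_ne_zero_of_mul hc⟩

theorem supp_sum {n : ι → ℝ} {p : ι → MvPolynomial ι ℝ} {m : ι →₀ ℕ}
    (h : m ∈ (∑ b, C (n b) * p b).support) : ∃ b, n b ≠ 0 ∧ m ∈ (p b).support := by
  rw [mem_support_iff, coeff_sum] at h
  obtain ⟨b, -, hb⟩ := Finset.exists_ne_zero_of_sum_ne_zero h
  rw [coeff_C_mul] at hb
  exact ⟨b, left_ne_zero_of_mul hb, mem_support_iff.2 (right_ne_zero_of_mul hb)⟩

theorem vars_sum {n : ι → ℝ} {p : ι → MvPolynomial ι ℝ} {x : ι}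
    (h : x ∈ (∑ b, C (n b) * p b).vars) : ∃ b, n b ≠ 0 ∧ x ∈ (p b).vars := by
  obtain ⟨m, hm, hx⟩ := (mem_vars_iff_mem_support _).1 h
  obtain ⟨b, h1, h2⟩ := supp_sum hm
  exact ⟨b, h1, (mem_vars_iff_mem_support _).2 ⟨m, h2, hx⟩⟩

theorem supp_sub {p : MvPolynomial ι ℝ} {c : ℝ} {m : ι →₀ ℕ} (h : m ∈ (p - C c).support) :
    m ∈ p.support ∨ m = 0 := by
  by_contra k
  push Not at k
  rw [mem_support_iff, coeff_sub, coeff_C, if_neg k.2.symm, sub_zero] at h
  exact k.1 (mem_support_iff.2 h)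

theorem vars_sub {p : MvPolynomial ι ℝ} {c : ℝ} {x : ι} (h : x ∈ (p - C c).vars) : x ∈ p.vars := by
  obtain ⟨m, hm, hx⟩ := (mem_vars_iff_mem_support _).1 h
  rcases supp_sub hm with k | k
  · exact (mem_vars_iff_mem_support _).2 ⟨m, k, hx⟩
  · subst k
    simp at hx

theorem th_rc (G : GT ι) (N N' : Matrix ι ι ℝ) (a : ι) :
    (rc G N N').th a = ∑ b, C (N a b) * G.th b := by
  simp only [GT.th, rc, Matrix.mul_apply, map_sum, map_mul, Finset.sum_mul, Finset.mul_sum,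
    mul_assoc]
  exact Finset.sum_comm

theorem bk_rc {G : GT ι} {N N' : Matrix ι ι ℝ} {V : Finset ι} (hV : G.Bk V)
    (h : ∀ a b, (N a b ≠ 0 ∨ N' a b ≠ 0) → (a ∈ V ↔ b ∈ V)) : (rc G N N').Bk V := by
  rintro a b (k | k)
  · obtain ⟨c, k1, k2⟩ := mul_ne k
    exact (h a c (Or.inl k1)).trans (hV c b (Or.inl k2))
  · obtain ⟨c, k1, k2⟩ := mul_ne k
    exact (hV a c (Or.inr k1)).trans (h c b (Or.inr k2))

theorem dv_rc {G : GT ι} (N N' : Matrix ι ι ℝ) {V : Finset ι} (hV : G.Bk V) : (rc G N N').dv V =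
    |(N'.submatrix (Subtype.val : V → ι) (Subtype.val : V → ι)).det| * G.dv V := by
  have e : (G.B * N').submatrix (Subtype.val : V → ι) (Subtype.val : V → ι) =
      G.B.submatrix (Subtype.val : V → ι) (Subtype.val : V → ι) *
        N'.submatrix (Subtype.val : V → ι) (Subtype.val : V → ι) := by
    ext a b
    simp only [Matrix.submatrix_apply, Matrix.mul_apply]
    rw [Finset.sum_coe_sort V fun c => G.B a c * N' c b]
    refine (Finset.sum_subset (Finset.subset_univ _) fun c _ hc => ?_).symm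
    by_contra k
    exact hc ((hV a c (Or.inr (left_ne_zero_of_mul k))).1 a.2)
  show |((G.B * N').submatrix (Subtype.val : V → ι) (Subtype.val : V → ι)).det| = _
  rw [e, Matrix.det_mul, abs_mul, mul_comm]
  rfl

end Rca

open Rca in
theorem rca : RCA := by
  intro s ι _ _ G N N' ρ hG hN
  refine ⟨⟨hG.w1, hG.ws, hG.gs, ?_, ?_, hG.qh, hG.ql, hG.qe⟩, th_rc G N N', fun T a => ?_,
    fun V hV h => ⟨bk_rc hV h, dv_rc N N' hV⟩, fun T P hT h => ⟨bk_rc hT.bk h, hT.qv,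
      fun a ha x hx => ?_, fun a ha m hm => ?_, fun a ha x hx => ?_, hT.s1, hT.s2⟩,
    fun T P c hT => ⟨⟨hT.bk, hT.qv, fun a ha x hx => hT.pv a ha (vars_sub hx), fun a ha m hm => ?_,
      fun a ha x hx => hT.pl a ha x (vars_sub hx), hT.s1, hT.s2⟩, fun a => ?_⟩⟩
  · show N * G.A * (G.B * N') = 1
    rw [Matrix.mul_assoc, ← Matrix.mul_assoc G.A, hG.AB, Matrix.one_mul, hN.inv]
  · rintro a b (k | k)
    · obtain ⟨c, k1, k2⟩ := mul_ne k
      have h1 := hN.blk a c (Or.inl k1)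
      have h2 := hG.blk c b (Or.inl k2)
      exact ⟨h1.1.trans h2.1, h1.2.trans h2.2⟩
    · obtain ⟨c, k1, k2⟩ := mul_ne k
      have h1 := hG.blk a c (Or.inr k1)
      have h2 := hN.blk c b (Or.inr k2)
      exact ⟨h1.1.trans h2.1, h1.2.trans h2.2⟩
  · simp only [GT.ch, th_rc, rcT, mul_add, Finset.sum_add_distrib]
  · obtain ⟨b, h1, h2⟩ := vars_sum hx
    exact hT.pv b ((h a b (Or.inl h1)).1 ha) h2
  · obtain ⟨b, h1, h2⟩ := supp_sum hm
    have := hT.pd b ((h a b (Or.inl h1)).1 ha) m h2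
    rw [← (hN.blk a b (Or.inl h1)).2] at this
    exact this
  · obtain ⟨b, h1, h2⟩ := vars_sum hx
    have := hT.pl b ((h a b (Or.inl h1)).1 ha) x h2
    rw [← (hN.blk a b (Or.inl h1)).1] at this
    exact this
  · rcases supp_sub hm with k | k
    · exact hT.pd a ha m k
    · subst k
      rw [map_zero]
      exact hG.w1 a
  · simp only [GT.ch, ct]
    ring

end

end Vale.Agent.P057T.Cp
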