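import Vale.Agent.P057T.Cfg.Cp
import Vale.Agent.P057T.Eq.Mono

/-! Change of chart keeps regularity. -/

set_option linter.all false

open MvPolynomial Finset

namespace Vale.Agent.P057T.Cp

open Vale.Agent.P057T.Eq

namespace RcrA

variable {ι : Type} [Fintype ι] [DecidableEq ι]

theorem sb_one : sb (1 : Matrix ι ι ℤ) = (X : ι → MvPolynomial ι ℝ) := by
  funext x
  unfold sb lin cz
  rw [sum_eq_single x]
  · simp
  · intro b _ hb
    simp [Matrix.one_apply_ne' hb]
  · simp

theorem row_le (N A : Matrix ι ι ℝ) (v : ι → ℝ) (a : ι) (ρ η : ℝ) (hη : 0 ≤ η)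
    (hN : ∑ b, |N a b| ≤ ρ) (h : ∀ d, N a d ≠ 0 → |∑ b, A d b * v b| ≤ η) :
    |∑ b, (N * A) a b * v b| ≤ ρ * η := by
  have e : ∑ b, (N * A) a b * v b = ∑ d, N a d * ∑ b, A d b * v b := by
    simp only [Matrix.mul_apply, sum_mul, mul_sum, mul_assoc]
    rw [sum_comm]
  rw [e]
  refine (abs_sum_le_sum_abs _ _).trans (le_trans (sum_le_sum (g := fun d => |N a d| * η)
    fun d _ => ?_) ?_)
  · rw [abs_mul]
    by_cases hd : N a d = 0
    · simp [hd]
    · exact mul_le_mul_of_nonneg_left (h d hd) (abs_nonneg _)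
  · rw [← sum_mul]
    exact mul_le_mul_of_nonneg_right hN hη

end RcrA

open RcrA in
theorem rcr (hP : PULL) (hW : WDG) (hA : RCA) : RCR := by
  intro s ι _ _ G N N' WW P c Y L sz c1 L0 hc hr
  obtain ⟨ok, th, -⟩ := hA s ι G N N' _ hr.ok hc
  have Y1 := sz.Y1
  have P0 : 0 ≤ P ^ 2 := sq_nonneg P
  have s0 : (0 : ℝ) ≤ s := by positivity
  have k0 : 0 ≤ s * (L + P ^ 2) := by positivity
  have k1 : (s + 1) * (L + P ^ 2) ≤ c * ((s + 1) * (L + P ^ 2)) :=
    le_mul_of_one_le_left (by positivity) c1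
  have k2 : 0 ≤ s * P ^ 2 := by positivity
  have k3 : 0 ≤ s * L := by positivity
  refine ⟨ok, ?_, fun g hg => ?_, fun g hg j hj hjg => ?_⟩
  · obtain ⟨Um, Vm, h1, -, h2⟩ := hr.wd.bd
    have := hW s ι (rc G N N') (fun g => WW g + L) P Um Vm ok ⟨sz.cd, sz.P2, le_rfl⟩
      (fun a b h => add_le_add_left (hr.wd.anti h) L) (fun g => add_nonneg (hr.wd.nn g) L0) h1
      fun a b => by
        rw [Real.exp_add, mul_comm]
        refine row_le N G.A (fun c => (Um c b : ℝ)) a _ _ (Real.exp_nonneg _) (hc.nb a)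
          fun d hd => ?_
        have := h2 d b
        rw [← (hc.blk a d (Or.inl hd)).1] at this
        exact this
    simpa only [add_assoc] using this
  · refine (hP s ι ι G (rc G N N') (Real.exp L) hr.ok ok (Real.one_le_exp L0)).2 g _
      (fun k x hk hx => ⟨1, N, ⟨fun x a h => ?_, fun x => ?_, hc.nb⟩, x, hx, ?_⟩)
      ((hr.big g hg).mono ?_)
    · obtain rfl : x = a := by
        by_contra e
        exact h (Matrix.one_apply_ne e)
      exact ⟨rfl, rfl⟩
    · rw [sb_one, aeval_X_left_apply, th]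
    · rw [sum_eq_single x]
      · simpa using hk
      · intro b _ hb
        simp [Matrix.one_apply_ne hb]
      · simp
    · rw [← Real.exp_nat_mul, ← Real.exp_add]
      exact Real.exp_le_exp.2 (by linarith)
  · obtain ⟨v, v1, v2, v3⟩ := hr.small g hg j hj hjg
    have w0 := hr.wd.nn g
    have p1 : 0 < c * (Y + (WW g + (L + P ^ 2))) := by positivity
    have p2 : c * (Y + (WW g + (L + P ^ 2))) ≤ c * (Y + (s + 2) * (L + P ^ 2) + WW g) :=
      mul_le_mul_of_nonneg_left (by linarith) (by linarith)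
    refine ⟨v, v1, v2, fun a => (row_le N G.A v a _ _
      (mul_nonneg (Real.exp_nonneg _) (inv_nonneg.2 (p1.le.trans p2))) (hc.nb a)
      fun d _ => v3 d).trans ?_⟩
    rw [← mul_assoc, ← Real.exp_add]
    exact mul_le_mul (Real.exp_le_exp.2 (by linarith)) (inv_anti₀ p1 p2)
      (inv_nonneg.2 (p1.le.trans p2)) (Real.exp_nonneg _)

end Vale.Agent.P057T.Cp
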