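import Vale.Agent.P057T.Eq.All
import Vale.Agent.P057T.Cp.Cell
import Vale.Agent.P057T.Cp.Cls
import Vale.Agent.P057T.Cp.Coa
import Vale.Agent.P057T.Cp.Cor
import Vale.Agent.P057T.Cp.Cpa
import Vale.Agent.P057T.Cp.CpmH97
import Vale.Agent.P057T.Cp.Cpr
import Vale.Agent.P057T.Cp.Dbl
import Vale.Agent.P057T.Cp.Fibr
import Vale.Agent.P057T.Cp.Fub
import Vale.Agent.P057T.Cp.Mono
import Vale.Agent.P057T.Cp.Pull
import Vale.Agent.P057T.Cp.Rca
import Vale.Agent.P057T.Cp.Rcr
import Vale.Agent.P057T.Cp.Wdg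

/-! Closed forms of the rows of `Cfg.Cp`. -/

namespace Vale.Agent.P057T.Cp.All

open Vale.Agent.P057T.Eq Vale.Agent.P057T.Eq.All

theorem msc : MS := ms detc masss
theorem pullc : PULL := pull bd0
theorem rcrc : RCR := rcr pullc wdg rca
theorem corc : COR := cor pullc wdg coa
theorem cprc : CPR := cpr pullc cpa
theorem cpmc : CPM := H97.cpm detc cpa
theorem fubc : FUB := fub detc summ
theorem dblc : DBL := dbl cpa cpmc fubc
theorem fibrc : FIBR := fibr mono cpa cprc msc fubc dblc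
theorem cellc : CELL := cell detc summ rca
theorem clsc : CLS := cls detc summ rca

end Vale.Agent.P057T.Cp.All
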