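import Vale.Agent.P057T.Cp.Gcs0
import Vale.Agent.P057T.CutcH48

/-! Row GCS: the box Cauchy-Schwarz inequality over all colours. -/

open MvPolynomial Finset
open scoped Real ComplexConjugate

namespace Vale.Agent.P057T.Cp

open Vale.Agent.P057T.Eq Vale.Agent.P057T.Eq.Br

noncomputable section

set_option linter.all false

namespace GcsP

variable {ι Γ : Type} [Fintype ι] [DecidableEq ι] [Fintype Γ] [DecidableEq Γ]

/-- the vertices supported on `D` -/
def vD (D : Finset Γ) : Finset (Γ → Bool) := univ.filter fun f => ∀ c, c ∉ D → f c = false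

theorem mem_vD {D : Finset Γ} {f : Γ → Bool} : f ∈ vD D ↔ ∀ c, c ∉ D → f c = false := by
  simp [vD]

def uD (T : AT ι) (col : ι → Finset Γ) (D : Finset Γ) : Finset (CV col Bool) :=
  univ.filter fun x => x.1.1 ∈ T.U ∧ x.1.2 ∈ vD D

theorem mem_uD {T : AT ι} {col : ι → Finset Γ} {D : Finset Γ} {x : CV col Bool} :
    x ∈ uD T col D ↔ x.1.1 ∈ T.U ∧ x.1.2 ∈ vD D := by simp [uD]

def wC (col : ι → Finset Γ) (c : Γ) : Finset (CV col Bool) := univ.filter fun x => c ∉ col x.1.1

theorem mem_wC {col : ι → Finset Γ} {c : Γ} {x : CV col Bool} : x ∈ wC col c ↔ c ∉ col x.1.1 := by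
  simp [wC]

def fl (c : Γ) (f : Γ → Bool) : Γ → Bool := Function.update f c (!f c)

theorem fl_fl (c : Γ) (f : Γ → Bool) : fl c (fl c f) = f := by
  funext c'
  by_cases h : c' = c
  · subst h; simp [fl]
  · simp [fl, h]

theorem rs_fl (e : Finset Γ) (c : Γ) (f : Γ → Bool) : rs e (fl c (rs e f)) = rs e (fl c f) := by
  funext c'
  by_cases h : c' ∈ e
  · by_cases h2 : c' = c
    · subst h2; simp [rs, fl, h]
    · simp [rs, fl, h, h2]
  · simp [rs, h]

theorem rs_vD {D e : Finset Γ} {f : Γ → Bool} (h : f ∈ vD D) : rs e f ∈ vD D :=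
  mem_vD.2 fun c hc => by
    unfold rs
    split_ifs
    · exact mem_vD.1 h c hc
    · rfl

def sg (col : ι → Finset Γ) (c : Γ) (x : CV col Bool) : CV col Bool := vx col (fl c x.1.2) x.1.1

theorem sg_vx (col : ι → Finset Γ) (c : Γ) (f : Γ → Bool) (a : ι) :
    sg col c (vx col f a) = vx col (fl c f) a :=
  Subtype.ext (Prod.ext rfl (rs_fl _ c f))

theorem sg_inv (col : ι → Finset Γ) (c : Γ) : Function.Involutive (sg col c) := fun x => by
  rw [show sg col c x = vx col (fl c x.1.2) x.1.1 from rfl, sg_vx, fl_fl, CutC.vx_self]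

theorem sg_val {col : ι → Finset Γ} {c : Γ} (x : CV col Bool) (c' : Γ) :
    (sg col c x).1.2 c' = if c' = c ∧ c ∈ col x.1.1 then !x.1.2 c else x.1.2 c' := by
  have h0 := congrFun x.2 c'
  change rs (col x.1.1) (fl c x.1.2) c' = _
  by_cases h : c' ∈ col x.1.1
  · by_cases h2 : c' = c
    · subst h2; simp [rs, fl, h]
    · simp [rs, fl, h, h2]
  · have h3 : ¬(c' = c ∧ c ∈ col x.1.1) := fun h4 => h (h4.1 ▸ h4.2)
    rw [if_neg h3, ← h0]
    simp [rs, h]

theorem sg_W {col : ι → Finset Γ} {c : Γ} (x : CV col Bool) (h : x ∈ wC col c) : sg col c x = x :=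
  Subtype.ext (Prod.ext rfl (funext fun c' => by
    rw [sg_val, if_neg fun h2 => mem_wC.1 h h2.2]))

theorem pt_sg (col : ι → Finset Γ) (c : Γ) (f : Γ → Bool) (z : CV col Bool → ℤ) :
    pt col f (z ∘ sg col c) = pt col (fl c f) z := by
  funext a
  simp only [pt, Function.comp, sg_vx]

theorem mem_ins {D : Finset Γ} {c : Γ} (hc : c ∉ D) {f : Γ → Bool} :
    f ∈ vD (insert c D) ↔ f ∈ vD D ∨ fl c f ∈ vD D := by
  simp only [mem_vD, mem_insert, not_or]
  constructor
  · intro h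
    cases hf : f c
    · exact Or.inl fun c' h' => if h2 : c' = c then h2 ▸ hf else h c' ⟨h2, h'⟩
    · refine Or.inr fun c' h' => ?_
      by_cases h2 : c' = c
      · subst h2; simp [fl, hf]
      · simp [fl, h2, h c' ⟨h2, h'⟩]
  · rintro (h | h) c' h'
    · exact h c' h'.2
    · simpa [fl, h'.1] using h c' h'.2

theorem fl_not {D : Finset Γ} {c : Γ} (hc : c ∉ D) {f : Γ → Bool} (h : f ∈ vD D) :
    fl c f ∉ vD D := fun h2 => by
  have := mem_vD.1 h2 c hc
  simp [fl, mem_vD.1 h c hc] at this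

theorem prod_ins {M : Type} [CommMonoid M] {D : Finset Γ} {c : Γ} (hc : c ∉ D) (p : (Γ → Bool) → Prop)
    [DecidablePred p] (hp : ∀ f, p f → p (fl c f)) (g : (Γ → Bool) → M) :
    ∏ f ∈ (vD (insert c D)).filter p, g f =
      (∏ f ∈ (vD D).filter p, g f) * ∏ f ∈ (vD D).filter p, g (fl c f) := by
  have inj : Function.Injective (fl c : (Γ → Bool) → _) := Function.Involutive.injective (fl_fl c)
  rw [← prod_image (s := (vD D).filter p) (g := fl c) (f := g) fun a _ b _ h => inj h, ← prod_union]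
  · refine prod_congr ?_ fun _ _ => rfl
    ext f
    simp only [mem_filter, mem_union, mem_image, mem_ins hc]
    constructor
    · rintro ⟨h | h, h2⟩
      · exact Or.inl ⟨h, h2⟩
      · exact Or.inr ⟨_, ⟨h, hp f h2⟩, fl_fl c f⟩
    · rintro (h | ⟨g, h, rfl⟩)
      · exact ⟨Or.inl h.1, h.2⟩
      · exact ⟨Or.inr (by rw [fl_fl]; exact h.1), hp g h.2⟩
  · rw [disjoint_right]
    intro f hf h2
    obtain ⟨g, hg, rfl⟩ := mem_image.1 hf
    exact fl_not hc (mem_filter.1 hg).1 (mem_filter.1 h2).1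

theorem cj_fl {c : Γ} {f : Γ → Bool} (h : f c = false) (x : ℂ) : cj (fl c f) x = conj (cj f x) := by
  have e : (univ.filter fun c' => fl c f c' = true) = insert c (univ.filter fun c' => f c' = true) := by
    ext c'
    rw [mem_insert, mem_filter, mem_filter]
    by_cases h2 : c' = c
    · subst h2; simp [fl, h]
    · simp [fl, h2]
  have e2 : Even (univ.filter fun c' => fl c f c' = true).card ↔
      ¬Even (univ.filter fun c' => f c' = true).card := by
    rw [e, card_insert_of_notMem (by simp [h]), Nat.even_add_one]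
  unfold cj
  by_cases h3 : Even (univ.filter fun c' => f c' = true).card
  · rw [if_pos h3, if_neg fun h4 => e2.1 h4 h3]
  · rw [if_neg h3, if_pos (e2.2 h3), Complex.conj_conj]

theorem cj_mul (f : Γ → Bool) (x y : ℂ) : cj f (x * y) = cj f x * cj f y := by
  unfold cj
  split_ifs <;> simp

theorem cj_norm (f : Γ → Bool) (x : ℂ) : ‖cj f x‖ = ‖x‖ := by
  unfold cj
  split_ifs <;> simp

def QQ (T : AT ι) (col : ι → Finset Γ) (D : Finset Γ) (A : (ι → ℤ) → ℂ) (z : CV col Bool → ℤ) : ℂ :=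
  ∏ f ∈ vD D, cj f (A (res T.U (pt col f z)))

theorem QQ_le {T : AT ι} {col : ι → Finset Γ} {D : Finset Γ} {A : (ι → ℤ) → ℂ} {B : ℝ}
    (h : ∀ z, ‖A z‖ ≤ B) (z : CV col Bool → ℤ) : ‖QQ T col D A z‖ ≤ B ^ (vD D).card := by
  rw [QQ, norm_prod, ← prod_const]
  exact prod_le_prod (fun _ _ => norm_nonneg _) fun f _ => by rw [cj_norm]; exact h _

theorem QQ_ins {T : AT ι} {col : ι → Finset Γ} {D : Finset Γ} {c : Γ} (hc : c ∉ D)
    (A : (ι → ℤ) → ℂ) (z : CV col Bool → ℤ) :
    QQ T col D A z * conj (QQ T col D A (z ∘ sg col c)) = QQ T col (insert c D) A z := by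
  have h := prod_ins hc (fun _ => True) (fun _ _ => trivial)
    fun f => cj f (A (res T.U (pt col f z)))
  simp only [filter_true] at h
  unfold QQ
  rw [h, map_prod]
  congr 1
  exact prod_congr rfl fun f hf => by rw [cj_fl (mem_vD.1 hf c hc), pt_sg]

theorem cl_uD (T : AT ι) (col : ι → Finset Γ) (D : Finset Γ) : Cl T col (uD T col D) :=
  fun x hx => ⟨(mem_uD.1 hx).1, fun b hb _ => mem_uD.2 ⟨hb, rs_vD (mem_uD.1 hx).2⟩⟩

theorem cl_uW (T : AT ι) (col : ι → Finset Γ) (D : Finset Γ) (c : Γ) :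
    Cl T col (uD T col D ∩ wC col c) := fun x hx => by
  obtain ⟨h1, h2⟩ := mem_inter.1 hx
  exact ⟨(mem_uD.1 h1).1, fun b hb hs => mem_inter.2 ⟨((cl_uD T col D x h1).2 b hb hs),
    mem_wC.2 fun h => mem_wC.1 h2 (hs h)⟩⟩

theorem cn_uD (T : AT ι) (col : ι → Finset Γ) (D e : Finset Γ)
    (h : (T.U.filter fun a => col a = e).Nonempty) :
    cn T col (uD T col D) e = ((vD D).filter fun f => rs e f = f).card := by
  obtain ⟨b, hb⟩ := h
  obtain ⟨hb1, hb2⟩ := mem_filter.1 hb
  unfold cn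
  congr 1
  ext f
  simp only [mem_filter, mem_univ, true_and]
  constructor
  · rintro ⟨h1, a, ha, rfl, h3⟩
    exact ⟨h1 ▸ (mem_uD.1 h3).2, h1⟩
  · rintro ⟨h1, h2⟩
    exact ⟨h2, b, hb1, hb2, mem_uD.2 ⟨hb1, rs_vD h1⟩⟩

theorem cn_uW (T : AT ι) (col : ι → Finset Γ) (D e : Finset Γ) (c : Γ) :
    cn T col (uD T col D ∩ wC col c) e = if c ∈ e then 0 else cn T col (uD T col D) e := by
  unfold cn
  split_ifs with h
  · rw [card_eq_zero, filter_eq_empty_iff]
    rintro f - ⟨-, a, -, rfl, h3⟩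
    exact mem_wC.1 (mem_inter.1 h3).2 h
  · congr 1
    refine filter_congr fun f _ => and_congr_right fun _ => exists_congr fun a => and_congr_right
      fun ha => and_congr_right fun hc => ⟨fun h3 => (mem_inter.1 h3).1, fun h3 =>
        mem_inter.2 ⟨h3, mem_wC.2 (by rw [← hc] at h; exact h)⟩⟩

theorem cnt_ins {D : Finset Γ} {c : Γ} (hc : c ∉ D) (e : Finset Γ) :
    ((vD (insert c D)).filter fun f => rs e f = f).card =
      (if c ∈ e then 2 else 1) * ((vD D).filter fun f => rs e f = f).card := by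
  split_ifs with h
  · have := prod_ins (M := Multiplicative ℕ) hc (fun f => rs e f = f) (fun f hf => by
      rw [← rs_fl, hf]
      funext c'
      by_cases h2 : c' = c
      · subst h2; simp [rs, h]
      · have := congrFun hf c'
        simpa [rs, fl, h2] using this) fun _ => Multiplicative.ofAdd 1
    simp only [prod_const, ← ofAdd_nsmul, smul_eq_mul, mul_one, ← ofAdd_add] at this
    rw [Multiplicative.ofAdd.injective this, two_mul]
  · rw [one_mul]
    congr 1
    ext f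
    simp only [mem_filter]
    refine and_congr_left fun hf => ⟨fun h2 => mem_vD.2 fun c' h' => ?_,
      fun h2 => (mem_ins hc).2 (Or.inl h2)⟩
    by_cases h3 : c' = c
    · subst h3
      rw [← hf]
      simp [rs, h]
    · exact mem_vD.1 h2 c' (by simp [h3, h'])

theorem mn_ins (hM : CPM) {s : ℕ} {G : GT ι} {T : AT ι} {P : ℝ} {col : ι → Finset Γ}
    (hG : G.Ok s) (hP : 0 < P) (hT : G.AOk T P) (hc : Col G col) (ht : ColT T col) {D : Finset Γ}
    {c : Γ} (hD : c ∉ D) : Mn (cp G col Bool) (cpT T col (uD T col D)) ^ 2 =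
      Mn (cp G col Bool) (cpT T col (uD T col D ∩ wC col c)) *
        Mn (cp G col Bool) (cpT T col (uD T col (insert c D))) := by
  obtain ⟨m1, -⟩ := hM s ι Γ Bool G T P col hG hc hP hT ht
  rw [m1 _ (cl_uD T col D), m1 _ (cl_uD T col _), m1 _ (cl_uW T col D c), ← prod_pow,
    ← prod_mul_distrib]
  refine prod_congr rfl fun e _ => ?_
  rw [← pow_mul, ← pow_add]
  refine DblP.mn_pow G T.sg _ fun h => ?_
  rw [cn_uW, cn_uD T col D e h, cn_uD T col _ e h, cnt_ins hD]
  split_ifs <;> ring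

theorem cls_wC {G : GT ι} {T : AT ι} {col : ι → Finset Γ}
    (a4 : Col (cp G col Bool) fun x => col x.1.1) (ht : ColT T col) (D : Finset Γ) (c : Γ) :
    Cls (cp G col Bool) (cpT T col (uD T col D)) (wC col c) where
  bk a b h := by
    have := a4.blk a b h
    rw [mem_wC, mem_wC, this]
  qv a ha b hb := mem_wC.2 fun h => mem_wC.1 ha (a4.sub a b hb h)
  pv x hx ha v hv := by
    obtain ⟨b, hb, rfl⟩ := mem_image.1 (vars_rename _ _ hv)
    exact mem_wC.2 fun h => mem_wC.1 ha (ht _ (mem_uD.1 hx).1 b hb h)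

theorem step (hA : CPA) (hF : FUB) {s : ℕ} {G : GT ι} {T : AT ι} {P : ℝ} {col : ι → Finset Γ}
    (hG : G.Ok s) (hP : 0 < P) (hT : G.AOk T P) (hc : Col G col) (ht : ColT T col) {D : Finset Γ}
    {c : Γ} (hD : c ∉ D) (A F : (ι → ℤ) → ℂ) {B : ℝ} (bA : ∀ z, ‖A z‖ ≤ B) (bF : ∀ z, ‖F z‖ ≤ 1)
    (hF2 : ∀ z z', (∀ a, c ∉ col a → z a = z' a) → F z = F z') :
    ∃ R : ℝ, 0 ≤ R ∧
      Ex (cp G col Bool) (cpT T col (uD T col (insert c D))) (QQ T col (insert c D) A) = (R : ℂ) ∧
      ‖Ex (cp G col Bool) (cpT T col (uD T col D)) (QQ T col D fun z => A z * F z)‖ ^ 2 ≤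
        Ex (cp G col Bool) (cpT T col (uD T col D ∩ wC col c)) (fun _ => (1 : ℝ)) * R := by
  obtain ⟨a1, -, a3, a4, a5⟩ := hA s ι Γ Bool G col hG hc
  obtain ⟨-, -, a7⟩ := a5 T P hT ht
  have sv : ∀ x : CV col Bool, x ∉ wC col c → (sg col c x).1.2 = fl c x.1.2 := fun x hx => by
    have h1 : c ∈ col x.1.1 := by simpa [mem_wC] using hx
    funext c'
    rw [sg_val]
    by_cases h2 : c' = c
    · subst h2; simp [fl, h1]
    · simp [fl, h2]
  have sw : ∀ x : CV col Bool, sg col c x ∈ wC col c ↔ x ∈ wC col c := fun x => by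
    rw [mem_wC, mem_wC]
    rfl
  obtain ⟨R, r0, r1, r2⟩ := gstep hF (T := cpT T col (uD T col (insert c D))) a1 hP
    (U0 := uD T col D) (W := wC col c) ((a7 _).2 (cl_uD T col _)) ((a7 _).2 (cl_uD T col D))
    (cls_wC a4 ht _ c) (cls_wC a4 ht D c) (sg col c) (sg_inv col c) sg_W
    (fun x => by
      change x ∈ uD T col (insert c D) \ _ ↔ _
      simp only [mem_sdiff, mem_uD, sw]
      by_cases hx : x ∈ wC col c
      · simp [hx]
      · rw [sv x hx, mem_ins hD]
        change _ ↔ _ ∨ (x.1.1 ∈ T.U ∧ _) ∧ _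
        tauto)
    (fun x hx h => by
      obtain ⟨h1, h2⟩ := mem_sdiff.1 hx
      have h3 := (mem_uD.1 h).2
      rw [sv x h2] at h3
      exact fl_not hD (mem_uD.1 h1).2 h3)
    (by
      change uD T col (insert c D) ∩ _ = _
      ext x
      simp only [mem_inter, mem_uD]
      refine and_congr_left fun hx => and_congr_right fun _ => ⟨fun h => mem_vD.2 fun c' h' => ?_,
        fun h => (mem_ins hD).2 (Or.inl h)⟩
      by_cases h3 : c' = c
      · subst h3
        rw [← x.2]
        simp [rs, mem_wC.1 hx]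
      · exact mem_vD.1 h c' (by simp [h3, h']))
    (fun x hx z => by
      have h1 := (mem_uD.1 (mem_sdiff.1 hx).1).1
      have e1 := (a7 (uD T col (insert c D))).1 (fl c x.1.2) _ h1
      have e2 := (a7 (uD T col (insert c D))).1 x.1.2 _ h1
      rw [CutC.vx_self] at e2
      rw [e2, show sg col c x = vx col (fl c x.1.2) x.1.1 from rfl, e1, a3, a3, pt_sg]
      rfl)
    (QQ T col D A) (QQ T col D F) (B := B ^ (vD D).card)
    (fun z z' h => prod_congr rfl fun f hf => by
      congr 2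
      funext a
      unfold res
      split_ifs with ha
      · exact h _ (mem_uD.2 ⟨ha, rs_vD hf⟩)
      · rfl)
    (fun z z' h => prod_congr rfl fun f hf => by
      congr 1
      refine hF2 _ _ fun a ha => ?_
      unfold res
      split_ifs
      · exact h _ (mem_wC.2 ha)
      · rfl)
    (QQ_le bA) (fun z => by simpa using QQ_le bF z)
  refine ⟨R, r0, ?_, ?_⟩
  · rw [← r1]
    congr 1
    funext z
    exact (QQ_ins hD A z).symm
  · refine le_of_eq_of_le ?_ r2
    congr 2
    change Ex _ (cpT T col (uD T col D)) _ = Ex _ (cpT T col (uD T col D)) _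
    congr 1
    funext z
    simp only [QQ, cj_mul, prod_mul_distrib]

theorem num {x R E M Mw M' y : ℝ} {n : ℕ} (hM : 0 < M) (hw : 0 < Mw) (hM' : 0 < M') (hR : 0 ≤ R)
    (hy : 0 ≤ y) (h1 : x ^ 2 ≤ E * R) (h2 : E ≤ 2 * Mw) (h3 : M ^ 2 = Mw * M')
    (h4 : y ^ 2 ^ n ≤ x / (2 * M)) : y ^ 2 ^ (n + 1) ≤ R / (2 * M') := by
  rw [pow_succ 2 n, pow_mul]
  refine (pow_le_pow_left₀ (by positivity) h4 2).trans ?_
  rw [div_pow, mul_pow, h3, div_le_div_iff₀ (by positivity) (by positivity)]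
  have h5 : x ^ 2 ≤ 2 * Mw * R := h1.trans (mul_le_mul_of_nonneg_right h2 hR)
  nlinarith

end GcsP

open GcsP in
theorem gcs (hMo : MONO) (hA : CPA) (hR : CPR) (hM : CPM) (hS : MS) (hF : FUB) : GCS := by
  intro s r
  obtain ⟨c1, hc1⟩ := hS s
  refine ⟨(r + 1) * c1, ?_⟩
  intro ι Γ _ _ _ _ G T WW P Y col H F B h0 hr hSz hT hrr hcol hcT hH hF1 hF2
  have hP := hSz.P2
  have hY := hSz.Y1
  have hG := hrr.ok
  have hP0 : 0 < P := by linarith
  have p1 : P ≤ P ^ (r + 1) := by simpa using pw_le hP (show 1 ≤ r + 1 by omega)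
  have r2 := hR s ι Γ Bool G col WW _ _ (by positivity) (by linarith) hcol hrr
  rw [pow_mul] at r2
  have z2 : Sz (CV col Bool) (P ^ (r + 1)) Y := by
    refine ⟨?_, by linarith, hY⟩
    have h1 : (Fintype.card (CV col Bool) : ℝ) ≤ Fintype.card ι * 2 ^ Fintype.card Γ := by
      exact_mod_cast CutC.card_CV col
    have h2 : (2 : ℝ) ^ Fintype.card Γ ≤ P ^ r :=
      (pow_le_pow_right₀ (by norm_num) hr).trans (pow_le_pow_left₀ (by norm_num) hP r)
    rw [pow_succ']
    exact h1.trans (mul_le_mul hSz.cd h2 (by positivity) hP0.le)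
  obtain ⟨a1, -, -, a4, a5⟩ := hA s ι Γ Bool G col hG hcol
  obtain ⟨-, -, a7⟩ := a5 T P hT hcT
  have ms := fun (U' : Finset (CV col Bool)) (h : Cl T col U') =>
    hc1 _ _ _ WW _ _ z2 (((a7 U').2 h).mono hP0 p1) r2
  have bA : ∀ (D : Finset Γ) z, ‖H z * ∏ c ∈ Dᶜ, F c z‖ ≤ B := fun D z => by
    rw [norm_mul, norm_prod]
    exact (mul_le_of_le_one_right (norm_nonneg _)
      (prod_le_one (fun _ _ => norm_nonneg _) fun c _ => hF1 c z)).trans (hH z)
  have key : ∀ D : Finset Γ,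
      (‖Ex G T (fun z => H z * ∏ c, F c z)‖ / (2 * Mn G T)) ^ 2 ^ D.card ≤
        ‖Ex (cp G col Bool) (cpT T col (uD T col D)) (QQ T col D fun z => H z * ∏ c ∈ Dᶜ, F c z)‖ /
          (2 * Mn (cp G col Bool) (cpT T col (uD T col D))) ∧
      (D.Nonempty → ∃ R : ℝ, 0 ≤ R ∧ Ex (cp G col Bool) (cpT T col (uD T col D))
        (QQ T col D fun z => H z * ∏ c ∈ Dᶜ, F c z) = (R : ℂ)) := by
    intro D
    induction D using Finset.induction_on with
    | empty =>
      refine ⟨le_of_eq ?_, fun h => absurd h not_nonempty_empty⟩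
      obtain ⟨-, m2⟩ := hM s ι Γ Bool G T P col hG hcol hP0 hT hcT
      obtain ⟨m3, m4⟩ := m2 (fun _ => false) ℂ fun z => H z * ∏ c, F c z
      have v0 : vD (∅ : Finset Γ) = {fun _ => false} := by
        ext f
        simp [mem_vD, funext_iff]
      have u0 : uD T col ∅ = T.U.image (vx col fun _ => false) := by
        ext x
        rw [mem_uD, v0, mem_singleton, mem_image]
        constructor
        · rintro ⟨h1, h2⟩
          exact ⟨_, h1, by rw [← h2, CutC.vx_self]⟩
        · rintro ⟨a, ha, rfl⟩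
          exact ⟨ha, funext fun c => by simp [vx, rs]⟩
      rw [card_empty, pow_zero, pow_one, u0, m3, ← m4]
      congr 3
      funext z
      simp [QQ, v0, cj]
    | insert c D hD ih =>
      obtain ⟨R, r0, r1, r2⟩ := step hA hF hG hP0 hT hcol hcT hD
        (fun z => H z * ∏ c ∈ (insert c D)ᶜ, F c z) (F c) (bA _) (hF1 c) (hF2 c)
      refine ⟨?_, fun _ => ⟨R, r0, r1⟩⟩
      have e : (fun z => H z * (∏ c ∈ (insert c D)ᶜ, F c z) * F c z) =
          fun z => H z * ∏ c ∈ Dᶜ, F c z := by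
        funext z
        rw [compl_insert, mul_assoc, prod_erase_mul _ _ (mem_compl.2 hD)]
      rw [e] at r2
      obtain ⟨w1, w2⟩ := ms _ (cl_uW T col D c)
      have w3 : Real.exp (-Y) ≤ 1 := Real.exp_le_one_iff.2 (by linarith)
      rw [r1, Complex.norm_real, Real.norm_of_nonneg r0, card_insert_of_notMem hD]
      refine num (ms _ (cl_uD T col D)).1 w1 (ms _ (cl_uD T col _)).1 r0 ?_ r2 ?_
        (mn_ins hM hG hP0 hT hcol hcT hD) ih.1
      · exact div_nonneg (norm_nonneg _) (mul_pos two_pos (mn_pos hG hT.bk (sg_pos hP0 hT))).le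
      · have := (abs_le.1 w2).2
        nlinarith
  obtain ⟨k1, k2⟩ := key univ
  haveI : Nonempty Γ := Fintype.card_pos_iff.1 h0
  obtain ⟨R, r0, r1⟩ := k2 univ_nonempty
  have v1 : vD (univ : Finset Γ) = univ := by
    ext f
    simp [mem_vD]
  have u1 : uD T col univ = fu T col Bool := by
    ext x
    simp [mem_uD, v1, fu]
  have m0 := (ms _ (cl_uD T col univ)).1
  rw [r1, Complex.norm_real, Real.norm_of_nonneg r0, card_univ] at k1
  rw [u1] at k1 r1 m0
  have e : Ex (cp G col Bool) (cpT T col (fu T col Bool)) (fun z => ∏ f, cj f (H (pt col f z))) =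
      (R : ℂ) := by
    rw [← r1]
    refine tsum_congr fun z => ?_
    congr 1
    simp only [QQ, v1, compl_univ, prod_empty, mul_one]
    refine prod_congr rfl fun f _ => ?_
    congr 2
    funext a
    unfold res
    split_ifs with ha
    · rfl
    · exact z.2 _ fun h => ha (mem_filter.1 h).2
  rw [e, Complex.ofReal_re]
  exact k1.trans (div_le_div_of_nonneg_left r0 m0 (by linarith))

end

end Vale.Agent.P057T.Cp
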