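import Vale.Agent.P057T.Cp.All
import Vale.Agent.P057T.Cp.Gcs

/-! The rows GCS and CUTC without hypotheses. -/

namespace Vale.Agent.P057T.Cp.All

theorem gcsc : GCS := gcs mono cpa cprc cpmc msc fubc

theorem cutcc : CUTC := cutc mono cpa cprc cpmc msc fubc gcsc

end Vale.Agent.P057T.Cp.All
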