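import Vale.Agent.P057T.Cfg.Cp
import Vale.Agent.P057T.Eq.Summ
import Vale.Agent.P057T.Eq.Mono
import Vale.Agent.P057T.CutH64

/-! One Cauchy-Schwarz step inside a tower with an involution. -/

set_option linter.all false

open MvPolynomial Finset
open scoped Real ComplexConjugate

namespace Vale.Agent.P057T.Cp

open Vale.Agent.P057T.Eq Vale.Agent.P057T.Eq.Br

noncomputable section

variable {J : Type} [Fintype J] [DecidableEq J] {G : GT J} {s : ℕ} {P : ℝ}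

theorem ch_congr {T : AT J} (hT : G.AOk T P) {x : J} (hx : x ∈ T.U) {z z' : J → ℤ}
    (h : ∀ v ∈ T.U, z v = z' v) : eval (cz z) (G.ch T x) = eval (cz z') (G.ch T x) := by
  have hc : ∀ v ∈ T.U, cz z v = cz z' v := fun v hv => by simp only [cz, h v hv]
  simp only [GT.ch, GT.th, map_add, map_sum, map_mul, map_sub, eval_C, eval_X]
  rw [eval_congr_vars fun a ha => hc a (hT.pv x hx ha)]
  congr 1
  refine sum_congr rfl fun b _ => ?_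
  by_cases hb : G.A x b = 0
  · simp [hb]
  · have hbU : b ∈ T.U := (hT.bk x b (Or.inl hb)).1 hx
    rw [hc b hbU, eval_congr_vars fun a ha => hc a (hT.qv b hbU ha)]

/-- two copies of a fibre -/
def dE {X0 X : Finset J} (σ : J → J) (hσ : Function.Involutive σ)
    (hU : ∀ x, x ∈ X ↔ x ∈ X0 ∨ σ x ∈ X0) (hd : ∀ x ∈ X0, σ x ∉ X0) : Lat X0 × Lat X0 ≃ Lat X where
  toFun u := ⟨u.1.1 + u.2.1 ∘ σ, fun a ha => by
    have h1 := mt (hU a).2 ha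
    rw [not_or] at h1
    simp [u.1.2 a h1.1, u.2.2 _ h1.2]⟩
  invFun x := (⟨res X0 x.1, fun a ha => if_neg ha⟩, ⟨res X0 (x.1 ∘ σ), fun a ha => if_neg ha⟩)
  left_inv u := by
    refine Prod.ext (Subtype.ext (funext fun a => ?_)) (Subtype.ext (funext fun a => ?_))
    · by_cases ha : a ∈ X0
      · simp [res, ha, u.2.2 _ (hd a ha)]
      · simp [res, ha, u.1.2 a ha]
    · by_cases ha : a ∈ X0
      · simp [res, ha, u.1.2 _ (hd a ha), hσ a]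
      · simp [res, ha, u.2.2 a ha]
  right_inv x := by
    refine Subtype.ext (funext fun a => ?_)
    by_cases ha : a ∈ X0
    · simp [res, ha, hd a ha]
    · by_cases hb : σ a ∈ X0
      · simp [res, ha, hb, hσ a]
      · simp [res, ha, hb, x.2 a fun h => ((hU a).1 h).elim ha hb]

theorem sk_aux {α : Type} {n : α → ℝ} (n0 : ∀ x, 0 ≤ n x) (sn : Summable n) {k : α → ℂ} {B : ℝ}
    (bk : ∀ x, ‖k x‖ ≤ B) : Summable fun x => ‖n x • k x‖ :=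
  Summable.of_nonneg_of_le (fun _ => norm_nonneg _) (fun x => by
    rw [norm_smul, Real.norm_of_nonneg (n0 _)]
    exact mul_le_mul_of_nonneg_left (bk _) (n0 _)) (sn.mul_right B)

theorem bd_aux {α : Type} {n : α → ℝ} (n0 : ∀ x, 0 ≤ n x) (sn : Summable n) {k : α → ℂ} {B : ℝ}
    (bk : ∀ x, ‖k x‖ ≤ B) : ‖∑' x, n x • k x‖ ≤ (∑' x, n x) * B := by
  rw [← tsum_mul_right]
  refine tsum_of_norm_bounded (sn.mul_right B).hasSum fun x => ?_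
  rw [norm_smul, Real.norm_of_nonneg (n0 _)]
  exact mul_le_mul_of_nonneg_left (bk _) (n0 _)

theorem sq_aux {α : Type} {n : α → ℝ} (n0 : ∀ x, 0 ≤ n x) (sn : Summable n) {k : α → ℂ} {B : ℝ}
    (bk : ∀ x, ‖k x‖ ≤ B) :
    ∑' u : α × α, (n u.1 * n u.2) • (k u.1 * conj (k u.2)) =
      ((‖∑' x, n x • k x‖ * ‖∑' x, n x • k x‖ : ℝ) : ℂ) := by
  have e1 : ∀ x, conj (n x • k x) = n x • conj (k x) := fun x => by simp [Complex.real_smul]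
  have e2 : ((‖∑' x, n x • k x‖ * ‖∑' x, n x • k x‖ : ℝ) : ℂ) =
      (∑' x, n x • k x) * conj (∑' x, n x • k x) := by
    rw [Complex.mul_conj']
    push_cast
    ring
  rw [e2, Complex.conj_tsum]
  simp only [e1]
  rw [tsum_mul_tsum_of_summable_norm (sk_aux n0 sn bk)
    (sk_aux n0 sn (k := fun x => conj (k x)) fun z => by rw [Complex.norm_conj]; exact bk z)]
  refine tsum_congr fun u => ?_
  simp only [Complex.real_smul, Complex.ofReal_mul]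
  ring

theorem nu_dbl {T : AT J} {U0 X0 X : Finset J} (h0 : G.AOk (T.rs U0) P) (hX : X0 ⊆ U0)
    (σ : J → J) (hσ : Function.Involutive σ) (hU : ∀ x, x ∈ X ↔ x ∈ X0 ∨ σ x ∈ X0)
    (hd : ∀ x ∈ X0, σ x ∉ X0)
    (hu : ∀ x ∈ X0, ∀ z : J → ℤ, T.sg (σ x) * eval (cz z) (G.ch T (σ x)) =
      T.sg x * eval (cz (z ∘ σ)) (G.ch T x)) {z a b : J → ℤ} (z0 : ∀ v ∈ U0, z v = a v)
    (z1 : ∀ v ∈ U0, (z ∘ σ) v = b v) :
    G.nu (T.rs X) z = G.nu (T.rs X0) a * G.nu (T.rs X0) b := by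
  have eU : X = X0 ∪ X0.image σ := by
    ext a
    rw [hU, mem_union, mem_image]
    refine or_congr Iff.rfl ⟨fun h => ⟨_, h, hσ a⟩, ?_⟩
    rintro ⟨b, hb, rfl⟩
    rwa [hσ b]
  have dj : Disjoint X0 (X0.image σ) := by
    rw [disjoint_right]
    intro a ha
    obtain ⟨b, hb, rfl⟩ := mem_image.1 ha
    exact hd b hb
  show Real.exp (-π * ∑ x ∈ X, (T.sg x * eval (cz z) (G.ch T x)) ^ 2) =
    Real.exp (-π * ∑ x ∈ X0, (T.sg x * eval (cz a) (G.ch T x)) ^ 2) *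
      Real.exp (-π * ∑ x ∈ X0, (T.sg x * eval (cz b) (G.ch T x)) ^ 2)
  rw [← Real.exp_add, ← mul_add, eU, sum_union dj, sum_image fun a _ b _ h => hσ.injective h]
  have e1 : ∀ x ∈ X0, (T.sg x * eval (cz z) (G.ch T x)) ^ 2 =
      (T.sg x * eval (cz a) (G.ch T x)) ^ 2 := fun x hx => by
    have : eval (cz z) (G.ch T x) = eval (cz a) (G.ch T x) := ch_congr h0 (hX hx) z0
    rw [this]
  have e2 : ∀ x ∈ X0, (T.sg (σ x) * eval (cz z) (G.ch T (σ x))) ^ 2 =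
      (T.sg x * eval (cz b) (G.ch T x)) ^ 2 := fun x hx => by
    have : eval (cz (z ∘ σ)) (G.ch T x) = eval (cz b) (G.ch T x) := ch_congr h0 (hX hx) z1
    rw [hu x hx, this]
  rw [sum_congr rfl e1, sum_congr rfl e2]

theorem fs_dbl {T : AT J} {U0 W : Finset J} (h0 : G.AOk (T.rs U0) P)
    (σ : J → J) (hσ : Function.Involutive σ) (hW : ∀ x ∈ W, σ x = x)
    (hU : ∀ x, x ∈ T.U \ W ↔ x ∈ U0 \ W ∨ σ x ∈ U0 \ W) (hd : ∀ x ∈ U0 \ W, σ x ∉ U0)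
    (hu : ∀ x ∈ U0 \ W, ∀ z : J → ℤ, T.sg (σ x) * eval (cz z) (G.ch T (σ x)) =
      T.sg x * eval (cz (z ∘ σ)) (G.ch T x))
    (k : (J → ℤ) → ℂ) {B : ℝ} (hk : ∀ z z', (∀ v ∈ U0, z v = z' v) → k z = k z')
    (bk : ∀ z, ‖k z‖ ≤ B) {y : J → ℤ} (hy0 : y ∈ Lat (U0 ∩ W))
    (s0 : Summable fun x : Lat (U0 \ W) => G.nu (T.rs (U0 \ W)) (y + x.1)) :
    Fs G T W (fun z => k z * conj (k (z ∘ σ))) y =
      ((‖Fs G (T.rs U0) W k y‖ * ‖Fs G (T.rs U0) W k y‖ : ℝ) : ℂ) := by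
  have hWn : ∀ x, x ∉ W → σ x ∉ W := fun x hx h => hx (by
    have := hW _ h
    rw [hσ x] at this
    rw [this]; exact h)
  have hy : ∀ a, y (σ a) = y a := fun a => by
    by_cases ha : a ∈ W
    · rw [hW a ha]
    · rw [hy0 a fun h => ha (mem_inter.1 h).2, hy0 _ fun h => hWn a ha (mem_inter.1 h).2]
  have hd' : ∀ x ∈ U0 \ W, σ x ∉ U0 \ W := fun x hx h => hd x hx (mem_sdiff.1 h).1
  refine Eq.trans ?_ (sq_aux (n := fun x : Lat (U0 \ W) => G.nu (T.rs (U0 \ W)) (y + x.1))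
    (fun _ => (nu_pos _ _).le) s0 (k := fun x => k (y + x.1)) fun x => bk _)
  rw [Fs, ← (dE σ hσ hU hd').tsum_eq]
  refine tsum_congr fun u => ?_
  have z0 : ∀ v ∈ U0, (y + (u.1.1 + u.2.1 ∘ σ)) v = (y + u.1.1) v := fun v hv => by
    have : u.2.1 (σ v) = 0 := u.2.2 _ fun h => hd _ h (by rwa [hσ v])
    simp [this]
  have z1 : ∀ v ∈ U0, ((y + (u.1.1 + u.2.1 ∘ σ)) ∘ σ) v = (y + u.2.1) v := fun v hv => by
    have : u.1.1 (σ v) = 0 := u.1.2 _ fun h => hd _ h (by rwa [hσ v])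
    simp [this, hy v, hσ v]
  show G.nu (T.rs (T.U \ W)) (y + (u.1.1 + u.2.1 ∘ σ)) •
    (k (y + (u.1.1 + u.2.1 ∘ σ)) * conj (k ((y + (u.1.1 + u.2.1 ∘ σ)) ∘ σ))) = _
  rw [nu_dbl h0 sdiff_subset σ hσ hU hd' hu z0 z1, hk _ _ z0, hk _ _ z1]

theorem gs1 {T : AT J} {U0 W : Finset J} (k φ : (J → ℤ) → ℂ)
    (hφ : ∀ z z', (∀ v ∈ W, z v = z' v) → φ z = φ z') (y : J → ℤ) :
    Fs G T W (fun z => k z * φ z) y = Fs G T W k y * φ y := by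
  rw [Fs, Fs, ← tsum_mul_right]
  refine tsum_congr fun x => ?_
  have : φ (y + x.1) = φ y := hφ _ _ fun v hv => by
    simp [x.2 v fun h => (mem_sdiff.1 h).2 hv]
  rw [this, smul_mul_assoc]

theorem gs2 {α : Type} {n : α → ℝ} (n0 : ∀ x, 0 ≤ n x) (sn : Summable n) {Θ φ : α → ℂ} {B : ℝ}
    (bΘ : ∀ x, ‖Θ x‖ ≤ B) (bφ : ∀ z, ‖φ z‖ ≤ 1) :
    ∃ R : ℝ, 0 ≤ R ∧ ∑' x, n x • ((‖Θ x‖ * ‖Θ x‖ : ℝ) : ℂ) = (R : ℂ) ∧
      ‖∑' x, n x • (Θ x * φ x)‖ ^ 2 ≤ (∑' x, n x • (1 : ℝ)) * R := by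
  have wt : Cut.Wt n := ⟨n0, sn⟩
  have bd : Cut.Bd fun y => ‖Θ y‖ := ⟨B, fun y => by rw [abs_norm]; exact bΘ _⟩
  refine ⟨Cut.Ex n (fun y => ‖Θ y‖ * ‖Θ y‖),
    Cut.Ex_nonneg wt fun y => mul_nonneg (norm_nonneg _) (norm_nonneg _), ?_, ?_⟩
  · rw [Cut.Ex, Complex.ofReal_tsum]
    refine tsum_congr fun y => ?_
    rw [Complex.real_smul, ← Complex.ofReal_mul]
  · simp only [smul_eq_mul, mul_one]
    refine le_trans (pow_le_pow_left₀ (norm_nonneg _) ?_ 2) (Cut.Ex_cs wt bd)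
    refine tsum_of_norm_bounded (wt.mul bd).hasSum fun y => ?_
    rw [norm_smul, Real.norm_of_nonneg (n0 _), norm_mul]
    exact mul_le_mul_of_nonneg_left (mul_le_of_le_one_right (norm_nonneg _) (bφ _)) (n0 _)

theorem gstep (hF : FUB) {T : AT J} (hG : G.Ok s) (hP : 0 < P) {U0 W : Finset J}
    (h1 : G.AOk T P) (h0 : G.AOk (T.rs U0) P) (c1 : Cls G T W) (c0 : Cls G (T.rs U0) W)
    (σ : J → J) (hσ : Function.Involutive σ) (hW : ∀ x ∈ W, σ x = x)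
    (hU : ∀ x, x ∈ T.U \ W ↔ x ∈ U0 \ W ∨ σ x ∈ U0 \ W) (hd : ∀ x ∈ U0 \ W, σ x ∉ U0)
    (hI : T.U ∩ W = U0 ∩ W)
    (hu : ∀ x ∈ U0 \ W, ∀ z : J → ℤ, T.sg (σ x) * eval (cz z) (G.ch T (σ x)) =
      T.sg x * eval (cz (z ∘ σ)) (G.ch T x))
    (k φ : (J → ℤ) → ℂ) {B : ℝ} (hk : ∀ z z', (∀ v ∈ U0, z v = z' v) → k z = k z')
    (hφ : ∀ z z', (∀ v ∈ W, z v = z' v) → φ z = φ z') (bk : ∀ z, ‖k z‖ ≤ B)
    (bφ : ∀ z, ‖φ z‖ ≤ 1) :
    ∃ R : ℝ, 0 ≤ R ∧ Ex G T (fun z => k z * conj (k (z ∘ σ))) = (R : ℂ) ∧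
      ‖Ex G (T.rs U0) (fun z => k z * φ z)‖ ^ 2 ≤
        Ex G (T.rs (U0 ∩ W)) (fun _ => (1 : ℝ)) * R := by
  have B0 : 0 ≤ B := (norm_nonneg _).trans (bk 0)
  obtain ⟨a0, -, s0, ⟨B', hB'⟩, f0⟩ := hF s J G (T.rs U0) P W hG hP h0 c0
  obtain ⟨-, -, -, -, f1⟩ := hF s J G T P W hG hP h1 c1
  have s1 : ∀ y : J → ℤ, Summable fun x : Lat (U0 \ W) => G.nu (T.rs (U0 \ W)) (y + x.1) := s0
  have a1 : G.AOk (T.rs (U0 ∩ W)) P := a0
  have bΘ : ∀ y, ‖Fs G (T.rs U0) W k y‖ ≤ B' * B := fun y => by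
    refine (bd_aux (fun _ => (nu_pos _ _).le) (s1 y) (k := fun x => k (y + x.1))
      fun x => bk _).trans ?_
    refine mul_le_mul_of_nonneg_right (le_trans (le_of_eq ?_) (hB' y)) B0
    simp only [Fs, smul_eq_mul, mul_one]
    rfl
  have s2 : Summable fun y : Lat (U0 ∩ W) => G.nu (T.rs (U0 ∩ W)) y.1 :=
    summ s J G (T.rs (U0 ∩ W)) P hG hP a1
  obtain ⟨R, r0, r1, r2⟩ := gs2 (n := fun y : Lat (U0 ∩ W) => G.nu (T.rs (U0 ∩ W)) y.1)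
    (fun _ => (nu_pos _ _).le) s2 (Θ := fun y => Fs G (T.rs U0) W k y.1) (φ := fun y => φ y.1)
    (fun y => bΘ _) fun y => bφ _
  have b2 : ∀ z : J → ℤ, ‖k z * conj (k (z ∘ σ))‖ ≤ B * B := fun z => by
    rw [norm_mul, Complex.norm_conj]
    exact mul_le_mul (bk _) (bk _) (norm_nonneg _) B0
  have b3 : ∀ z, ‖k z * φ z‖ ≤ B := fun z => by
    rw [norm_mul]
    exact (mul_le_of_le_one_right (norm_nonneg _) (bφ z)).trans (bk z)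
  have g1 : Ex G T (fun z => k z * conj (k (z ∘ σ))) =
      Ex G (T.rs (U0 ∩ W)) (Fs G T W fun z => k z * conj (k (z ∘ σ))) := by
    rw [← hI]; exact f1 ℂ _ (B * B) b2
  have g0 : Ex G (T.rs U0) (fun z => k z * φ z) =
      Ex G (T.rs (U0 ∩ W)) (Fs G (T.rs U0) W fun z => k z * φ z) := f0 ℂ _ B b3
  refine ⟨R, r0, ?_, ?_⟩
  · rw [g1, ← r1]
    refine tsum_congr fun y : Lat (U0 ∩ W) => ?_
    rw [fs_dbl h0 σ hσ hW hU hd hu k hk bk y.2 (s1 y.1)]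
  · have g2 : Ex G (T.rs (U0 ∩ W)) (Fs G (T.rs U0) W fun z => k z * φ z) =
        ∑' y : Lat (U0 ∩ W), G.nu (T.rs (U0 ∩ W)) y.1 • (Fs G (T.rs U0) W k y.1 * φ y.1) :=
      tsum_congr fun y : Lat (U0 ∩ W) => by rw [gs1 (U0 := U0) k φ hφ]
    rw [g0, g2]
    exact r2

end

end Vale.Agent.P057T.Cp
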