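import Vale.Agent.P057T.Cfg.Cp
import Vale.Agent.P057T.Eq.Wb

/-! Widths from any short basis (the lemmas of Eq/Wb with a smaller constant). -/

open MvPolynomial Finset

namespace Vale.Agent.P057T.Cp

open Vale.Agent.P057T.Herm Vale.Agent.P057T.Eq

set_option linter.all false

namespace Wg

open Vale.Agent.P057T.Eq.Wb hiding cp

variable {ι : Type} [Fintype ι] [DecidableEq ι]

theorem wb2 {G : GT ι} {s : ℕ} (hG : G.Ok s) {WW : ℕ → ℝ} (ha : Antitone WW) (hW : Wf G WW)
    {S : Finset ι} (hS : G.Bk S) {g : ℕ} (hg : ∀ a ∈ S, g ≤ G.g a) :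
    ∃ U V : Matrix S S ℤ, U * V = 1 ∧ V * U = 1 ∧ ∀ a b : S,
      |∑ c : S, G.A a.1 c.1 * (U c b : ℝ)| ≤
        Real.exp (WW g + (7 / 20 * ((Fintype.card ι : ℝ) ^ 2 + 1))) := by
  set A := G.A.submatrix (Subtype.val : S → ι) (Subtype.val : S → ι) with hA
  set B := G.B.submatrix (Subtype.val : S → ι) (Subtype.val : S → ι) with hB
  have hAB : A * B = 1 := sub_inv hG hS
  have hd : A.det ≠ 0 := by
    intro h
    have := congrArg Matrix.det hAB
    rw [Matrix.det_mul, h, zero_mul, Matrix.det_one] at this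
    exact zero_ne_one this
  have hE := Real.exp_pos (-WW g)
  obtain ⟨U, V, h1, h2, h3⟩ := short_basis A hd (T := Real.exp (-WW g) ^ 2 / 2) (by
    intro k hk
    obtain ⟨a, h⟩ := dual hG ha hW hS hg k hk
    refine ⟨fun b => B b a, ?_⟩
    have e : ql A (fun b => B b a) = 1 := by
      have : ∀ i, (Matrix.mulVec A fun b => B b a) i = if i = a then 1 else 0 := fun i => by
        have := congrFun (congrFun hAB i) a
        rw [Matrix.mul_apply, Matrix.one_apply] at this
        exact this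
      simp [ql, this]
    rw [e]
    have h4 := pow_le_pow_left₀ hE.le h 2
    rw [sq_abs] at h4
    have h5 : 0 < Real.exp (-WW g) ^ 2 := by positivity
    simp only [hB, Matrix.submatrix_apply]
    linarith)
  refine ⟨U, V, h1, h2, fun a b => ?_⟩
  have h4 : (∑ c : S, G.A a.1 c.1 * (U c b : ℝ)) ^ 2 ≤ ql A (fun i => (U i b : ℝ)) :=
    Finset.single_le_sum (f := fun i => (Matrix.mulVec A fun i => (U i b : ℝ)) i ^ 2)
      (fun _ _ => sq_nonneg _) (mem_univ a)
  have h5 := h3 b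
  have hc : Fintype.card S ≤ Fintype.card ι := Fintype.card_subtype_le _
  have e2 : (2 : ℝ) ≤ Real.exp (7 / 10) := by
    have h := Real.log_two_lt_d9
    rw [← Real.exp_log (show (0 : ℝ) < 2 by norm_num)]
    exact Real.exp_le_exp.2 (by linarith)
  have h6 : (2 : ℝ) ^ (Fintype.card S * Fintype.card S) ≤
      Real.exp (7 / 10 * (Fintype.card ι : ℝ) ^ 2) := by
    calc (2 : ℝ) ^ (Fintype.card S * Fintype.card S)
        ≤ 2 ^ (Fintype.card ι * Fintype.card ι) :=
          pow_le_pow_right₀ one_le_two (Nat.mul_le_mul hc hc)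
      _ ≤ Real.exp (7 / 10) ^ (Fintype.card ι * Fintype.card ι) :=
          pow_le_pow_left₀ zero_le_two e2 _
      _ = _ := by rw [← Real.exp_nat_mul]; congr 1; push_cast; ring
  refine abs_le_of_sq_le_sq' ?_ (Real.exp_pos _).le |> fun h => abs_le.2 h
  set q := ql A (fun i => (U i b : ℝ))
  have e1 : Real.exp (WW g + (7 / 20 * ((Fintype.card ι : ℝ) ^ 2 + 1))) ^ 2 *
      Real.exp (-WW g) ^ 2 = Real.exp (7 / 10 * (Fintype.card ι : ℝ) ^ 2) * Real.exp (7 / 10) := by
    rw [← mul_pow, ← Real.exp_add, ← Real.exp_add, ← Real.exp_nat_mul]; congr 1; push_cast; ring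
  have h7 : q * Real.exp (-WW g) ^ 2 ≤
      Real.exp (7 / 10 * (Fintype.card ι : ℝ) ^ 2) * Real.exp (7 / 10) := by
    have x0 := Real.exp_pos (7 / 10 * (Fintype.card ι : ℝ) ^ 2)
    set x := Real.exp (7 / 10 * (Fintype.card ι : ℝ) ^ 2)
    have : 2 * x ≤ x * Real.exp (7 / 10) := by nlinarith
    nlinarith
  rw [← e1] at h7
  exact h4.trans (le_of_mul_le_mul_right h7 (by positivity))

theorem wbv2 {G : GT ι} {s : ℕ} (hG : G.Ok s) {WW : ℕ → ℝ} (ha : Antitone WW) (hW : Wf G WW)
    {S : Finset ι} (hS : G.Bk S) {g : ℕ} (hg : ∀ a ∈ S, g ≤ G.g a) :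
    ∃ v u : ι → ι → ℤ, (∀ b c, c ∉ S → v b c = 0) ∧
      (∀ b a, |∑ c, G.A a c * (v b c : ℝ)| ≤ Real.exp (WW g + (7 / 20 * ((Fintype.card ι : ℝ) ^ 2 + 1)))) ∧
      ∀ a ∈ S, ∀ c, ∑ b ∈ S, u a b * v b c = if c = a then 1 else 0 := by
  obtain ⟨U, V, h1, -, h3⟩ := wb2 hG ha hW hS hg
  refine ⟨fun b c => if h : b ∈ S ∧ c ∈ S then U ⟨c, h.2⟩ ⟨b, h.1⟩ else 0,
    fun a b => if h : a ∈ S ∧ b ∈ S then V ⟨b, h.2⟩ ⟨a, h.1⟩ else 0, ?_, ?_, ?_⟩
  · intro b c hc
    simp [hc]
  · intro b a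
    by_cases hb : b ∈ S
    · by_cases haS : a ∈ S
      · rw [← sum_sub S]
        · have := h3 ⟨a, haS⟩ ⟨b, hb⟩
          simpa [hb] using this
        · intro c hc
          simp [hc]
      · rw [Finset.sum_eq_zero, abs_zero]
        · exact (Real.exp_pos _).le
        · intro c _
          by_cases hc : c ∈ S
          · have : G.A a c = 0 := by
              by_contra h
              exact haS ((hS a c (Or.inl h)).2 hc)
            simp [this]
          · simp [hc]
    · simp [hb, (Real.exp_pos _).le]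
  · intro a haS c
    by_cases hc : c ∈ S
    · have := congrFun (congrFun h1 ⟨c, hc⟩) ⟨a, haS⟩
      rw [Matrix.mul_apply, Matrix.one_apply] at this
      rw [← Finset.sum_coe_sort S]
      simp only [haS, hc, true_and, and_true, Finset.coe_mem, dite_true, Subtype.coe_eta]
      simp only [Subtype.mk.injEq] at this
      rw [← this]
      exact Finset.sum_congr rfl fun b _ => mul_comm _ _
    · have : c ≠ a := fun h => hc (h ▸ haS)
      simp [hc, this]

theorem wd2 {G : GT ι} {s : ℕ} (hG : G.Ok s) {WW W1 : ℕ → ℝ} (ha : Antitone WW)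
    (hW : Wf G WW) (ha1 : Antitone W1) (h0 : ∀ g, 0 ≤ W1 g)
    (h1 : ∀ g, WW g + (7 / 20 * ((Fintype.card ι : ℝ) ^ 2 + 1)) ≤ W1 g) : G.Wd W1 := by
  have h := fun a : ι => wbv2 hG ha hW (cp_bk G a) (g := G.g a) fun b hb => (cp_g hG hb).ge
  have h' : ∀ S : Finset ι, ∃ v u : ι → ι → ℤ, ∀ a, Wb.cp G a = S → (∀ b c, c ∉ S → v b c = 0) ∧
      (∀ b a', |∑ c, G.A a' c * (v b c : ℝ)| ≤
        Real.exp (WW (G.g a) + (7 / 20 * ((Fintype.card ι : ℝ) ^ 2 + 1)))) ∧
      ∀ a ∈ S, ∀ c, ∑ b ∈ S, u a b * v b c = if c = a then 1 else 0 := by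
    intro S
    by_cases hS : ∃ a, Wb.cp G a = S
    · obtain ⟨a, rfl⟩ := hS
      obtain ⟨v, u, h2, h3, h4⟩ := h a
      refine ⟨v, u, fun a' ha' => ⟨h2, ?_, h4⟩⟩
      rw [cp_g hG (ha' ▸ cp_self G a')]
      exact h3
    · exact ⟨0, 0, fun a ha' => absurd ⟨a, ha'⟩ hS⟩
  choose v u hv using h'
  refine ⟨ha1, h0, Matrix.of fun c b => v (Wb.cp G b) b c,
    Matrix.of fun b a => if b ∈ Wb.cp G a then u (Wb.cp G a) a b else 0, ?_, ?_, ?_⟩
  · ext c a
    rw [Matrix.mul_apply, Matrix.one_apply, ← (hv _ a rfl).2.2 a (cp_self G a) c,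
      ← Finset.sum_subset (subset_univ (Wb.cp G a))]
    · refine Finset.sum_congr rfl fun b hb => ?_
      simp only [Matrix.of_apply, hb, if_true, cp_eq hb]
      ring
    · intro b _ hb
      simp [hb]
  · rintro V hV a b (h2 | h2)
    · by_cases h3 : a ∈ Wb.cp G b
      · exact (mem_cp.1 h3 V hV).symm
      · exact absurd ((hv _ b rfl).1 b a h3) h2
    · by_cases h3 : a ∈ Wb.cp G b
      · exact (mem_cp.1 h3 V hV).symm
      · simp [h3] at h2
  · intro a b
    by_cases h3 : a ∈ Wb.cp G b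
    · refine ((hv _ b rfl).2.1 b a).trans (Real.exp_le_exp.2 ?_)
      rw [cp_g hG h3]
      exact h1 _
    · rw [Finset.sum_eq_zero, abs_zero]
      · exact (Real.exp_pos _).le
      · intro c _
        by_cases hc : c ∈ Wb.cp G b
        · have : G.A a c = 0 := by
            by_contra h4
            exact h3 ((cp_bk G b a c (Or.inl h4)).2 hc)
          simp [this]
        · simp [(hv _ b rfl).1 b c hc]
theorem wf2 {G : GT ι} {s : ℕ} (hG : G.Ok s) {WW : ℕ → ℝ} {U V : Matrix ι ι ℤ} (h1 : U * V = 1)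
    (h3 : ∀ a b, |∑ c, G.A a c * (U c b : ℝ)| ≤ Real.exp (WW (G.g a))) :
    Wf G fun g => WW g + Fintype.card ι := by
  intro g k hk hg
  by_contra hc
  push Not at hc
  have hBA : G.B * G.A = 1 := mul_eq_one_comm.1 hG.AB
  have hz : ∀ b, ∑ c, k c * U c b = 0 := by
    intro b
    have e : ((∑ c, k c * U c b : ℤ) : ℝ) =
        ∑ a, (∑ c, (k c : ℝ) * G.B c a) * ∑ c, G.A a c * (U c b : ℝ) := by
      have e1 : ∀ c d, ∑ a, G.B c a * G.A a d = if c = d then 1 else 0 := fun c d => by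
        have := congrFun (congrFun hBA c) d
        rwa [Matrix.mul_apply, Matrix.one_apply] at this
      simp only [Finset.sum_mul_sum]
      rw [Finset.sum_comm]
      push_cast
      refine Finset.sum_congr rfl fun c _ => ?_
      rw [Finset.sum_comm]
      have : ∀ d, ∑ a, (k c : ℝ) * G.B c a * (G.A a d * U d b) =
          (k c : ℝ) * U d b * ∑ a, G.B c a * G.A a d := fun d => by
        rw [Finset.mul_sum]; exact Finset.sum_congr rfl fun a _ => by ring
      simp [this, e1]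
    have hD : (Fintype.card ι : ℝ) < Real.exp (Fintype.card ι) := by
      have := Real.add_one_le_exp (Fintype.card ι : ℝ); linarith
    have e2 : ∀ a, |(∑ c, (k c : ℝ) * G.B c a) * ∑ c, G.A a c * (U c b : ℝ)| ≤
        Real.exp (-(Fintype.card ι : ℝ)) := by
      intro a
      by_cases ha : G.g a = g
      · rw [abs_mul]
        refine (mul_le_mul (hc a).le (h3 a b) (abs_nonneg _) (Real.exp_pos _).le).trans ?_
        rw [← Real.exp_add, ha]
        exact le_of_eq (by congr 1; ring)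
      · have e3 : ∑ c, (k c : ℝ) * G.B c a = 0 := by
          refine Finset.sum_eq_zero fun c _ => ?_
          by_contra h
          have h4 : k c ≠ 0 := by exact_mod_cast left_ne_zero_of_mul h
          exact ha ((hG.blk c a (Or.inr (right_ne_zero_of_mul h))).1.symm.trans (hg c h4))
        rw [e3, zero_mul, abs_zero]
        exact (Real.exp_pos _).le
    have e3 : |((∑ c, k c * U c b : ℤ) : ℝ)| < 1 := by
      rw [e]
      refine (Finset.abs_sum_le_sum_abs _ _).trans_lt ?_
      refine (Finset.sum_le_sum fun a _ => e2 a).trans_lt ?_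
      rw [Finset.sum_const, card_univ, nsmul_eq_mul, Real.exp_neg, ← div_eq_mul_inv,
        div_lt_one (Real.exp_pos _)]
      exact hD
    have e4 : |∑ c, k c * U c b| < 1 := by exact_mod_cast e3
    exact Int.abs_lt_one_iff.1 e4
  apply hk
  have e5 : Matrix.vecMul k U = 0 := funext fun b => hz b
  have e6 := congrArg (fun x => Matrix.vecMul x V) e5
  simpa [Matrix.vecMul_vecMul, h1] using e6
end Wg

theorem wdg : WDG := by
  intro s ι _ _ G WW P Um Vm hG hP ha h0 e hb
  have P2 := hP.P2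
  have c1 := hP.cd
  have c0 : (0 : ℝ) ≤ Fintype.card ι := Nat.cast_nonneg _
  refine Wg.wd2 hG (fun a b h => add_le_add (ha h) le_rfl) (Wg.wf2 hG e hb)
    (fun a b h => add_le_add (ha h) le_rfl) (fun g => add_nonneg (h0 g) (by positivity)) fun g => ?_
  nlinarith [pow_le_pow_left₀ c0 c1 2]

end Vale.Agent.P057T.Cp
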